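import Vale.Agent.P281.H716.NU.KT
import Vale.Agent.P281.H413.NU.LA
import Vale.Agent.P281.H167.LC.Lap
import Vale.Agent.P281.H575.LC.Mass

/-! P281, theorem NU, row N9 (the fibre side): the mass inequality for two sections of the same line
bundle. -/

open scoped Manifold ContDiff ComplexOrder Topology
open Complex Set Filter MeasureTheory

set_option linter.all false

noncomputable section

namespace Vale.Agent.P281.H167.NU

open Vale.Agent.P272.K Vale.Agent.P272.K.AMP Vale.Agent.P299.D Vale.Agent.P299 Vale.Agent.P299.H882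
open Vale.Agent.P281.H167.SA Vale.Agent.P281.H167.GM Vale.Agent.P281.H713.KD
open Vale.Agent.P281.H413.FC
open Vale.Agent.P281.H413.MFS (psd_chart)
open INT (IsDensity intX IsClosedForm)

variable {n : ℕ} {X : Type} [TopologicalSpace X] [ChartedSpace (Cm n) X]
  [IsManifold 𝓘(ℂ, Cm n) ω X]

/-- `N₀`, `N₁` are the squares of the norms of two sections of a line bundle of curvature `q Λ` -/
def LocPair (Λ : D.FormM n X) (q : ℕ) (N₀ N₁ : X → ℝ) : Prop :=
  ∀ x, ∃ (e : Chart n X) (ψ : Cm n → ℝ) (c₀ c₁ : Cm n → ℂ), At e x ∧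
    ContDiffAt ℝ ∞ ψ (e x) ∧ AnalyticAt ℂ c₀ (e x) ∧ AnalyticAt ℂ c₁ (e x) ∧
    cHess ψ (e x) = (q : ℂ) • Λ e (e x) ∧ ∀ᶠ z in 𝓝 (e x),
      N₀ (e.symm z) = ‖c₀ z‖ ^ 2 * Real.exp (-ψ z) ∧ N₁ (e.symm z) = ‖c₁ z‖ ^ 2 * Real.exp (-ψ z)

/-- the line bundle of curvature `Λ` is pseudoeffective, with these approximations -/
def NefF (Λ χ : D.FormM n X) : Prop :=
  ∀ ε₀ : ℝ, 0 < ε₀ → ∃ (m : ℕ) (ρ : X → ℝ) (C : ℝ), 0 < m ∧ SmoothFn (n := n) ρ ∧
    (∀ x, 0 ≤ ρ x) ∧
    (∀ e ∈ atlas (Cm n) X, MeasureTheory.volume {z | z ∈ e.target ∧ ρ (e.symm z) = 0} = 0) ∧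
    0 ≤ C ∧ ∀ δ : ℝ, 0 < δ → ∀ e x, At e x → (Λ e (e x) + (((m : ℝ)⁻¹ : ℝ) : ℂ) •
      hess (fun y => Real.log (ρ y + δ)) e (e x) +
      ((C * (δ / (ρ x + δ)) + ε₀ : ℝ) : ℂ) • χ e (e x)).PosSemidef

variable {Λ χ : D.FormM n X} {q : ℕ} {N₀ N₁ : X → ℝ}

lemma LocPair.loc0 (h : LocPair Λ q N₀ N₁) : LocN Λ q N₀ := fun x => by
  obtain ⟨e, ψ, c₀, c₁, a1, a2, a3, a4, a5, a6⟩ := h x
  exact ⟨e, ψ, c₀, a1, a2, a3, a5, a6.mono fun z hz => hz.1⟩

lemma LocPair.loc1 (h : LocPair Λ q N₀ N₁) : LocN Λ q N₁ := fun x => by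
  obtain ⟨e, ψ, c₀, c₁, a1, a2, a3, a4, a5, a6⟩ := h x
  exact ⟨e, ψ, c₁, a1, a2, a4, a5, a6.mono fun z hz => hz.2⟩

/-- the function `v = log (1 + N₁ / N₀)` -/
def vF (N₀ N₁ : X → ℝ) (x : X) : ℝ := Real.log (1 + N₁ x / N₀ x)

lemma smooth_vF (h0 : SmoothFn (n := n) N₀) (h1 : SmoothFn (n := n) N₁) (hp : ∀ x, 0 ≤ N₁ x)
    (e : Chart n X) (x : X) (hx : At e x) (hx0 : 0 < N₀ x) :
    ContDiffAt ℝ ∞ (fun z => vF N₀ N₁ (e.symm z)) (e x) := by
  unfold vF
  refine ContDiffAt.log (contDiffAt_const.add ((h1 e x hx).div (h0 e x hx) ?_)) ?_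
  · rw [hx.left_inv]; exact hx0.ne'
  · rw [hx.left_inv]
    have := hp x
    positivity

/-- the complex Hessian of `log (1 + |f|²)` -/
lemma cHess_log_one_add {f : Cm n → ℂ} {z : Cm n} (hf : AnalyticAt ℂ f z) :
    cHess (fun z => Real.log (1 + ‖f z‖ ^ 2)) z =
      ((((1 + ‖f z‖ ^ 2) ^ 2)⁻¹ : ℝ) : ℂ) • Matrix.vecMulVec (fun j => dz j f z)
        (star (fun j => dz j f z)) := by
  have e1 : (fun z => Real.log (1 + ‖f z‖ ^ 2)) = fun z =>
      Real.log (H455.KD.uv f (fun _ => 0) 1 z) := by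
    funext z
    unfold H455.KD.uv
    rw [Real.exp_zero, mul_one, add_comm]
  have e2 : cHess (fun _ : Cm n => (0 : ℝ)) z = 0 := C2.cHess_const 0
  have e3 : H455.KD.cov f (fun _ => (0 : ℝ)) z = fun j => dz j f z := by
    funext j
    unfold H455.KD.cov
    have : dz j (fun _ : Cm n => ((0 : ℝ) : ℂ)) z = 0 := by
      simp [dz]
    rw [this, mul_zero, sub_zero]
  rw [e1, H455.KD.cHess_log_uv hf contDiffAt_const one_pos, e2, smul_zero, zero_add, e3]
  unfold H455.KD.uv
  rw [Real.exp_zero, mul_one, one_div, add_comm (‖f z‖ ^ 2) 1]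

lemma psd_vF [T2Space X] (h0 : SmoothFn (n := n) N₀) (h1 : SmoothFn (n := n) N₁)
    (hl : LocPair Λ q N₀ N₁) {e : Chart n X} {x : X} (hx : At e x) (hx0 : 0 < N₀ x) :
    (hess (vF N₀ N₁) e (e x)).PosSemidef := by
  have c0 := INT.SmoothFn.continuous h0
  refine LC.hess_mem (V := {x | 0 < N₀ x}) (isOpen_lt continuous_const c0) dense_univ
    (fun e y hy hyV => smooth_vF h0 h1 hl.loc1.nonneg e y hy hyV) LC.isClosed_psd
    (fun A hA e e' x he he' h => psd_chart hA he he' h) ?_ hx hx0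
  intro y hyV _
  obtain ⟨e', ψ, c₀, c₁, he', h2, h3, h4, h5, h6⟩ := hl y
  refine ⟨e', he', ?_⟩
  have hc0 : c₀ (e' y) ≠ 0 := by
    intro h
    have h7 := h6.self_of_nhds.1
    rw [he'.left_inv, h] at h7
    have h8 : 0 < N₀ y := hyV
    rw [h7] at h8
    simp at h8
  have hf : AnalyticAt ℂ (fun z => c₁ z / c₀ z) (e' y) := h4.div h3 hc0
  have e1 : (fun z => vF N₀ N₁ (e'.symm z)) =ᶠ[𝓝 (e' y)] fun z =>
      Real.log (1 + ‖c₁ z / c₀ z‖ ^ 2) := by
    filter_upwards [h6, h3.continuousAt.eventually_ne hc0] with z hz hz0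
    unfold vF
    rw [hz.1, hz.2, norm_div, div_pow, mul_div_mul_right _ _ (Real.exp_pos _).ne']
  show (cHess (fun z => vF N₀ N₁ (e'.symm z)) (e' y)).PosSemidef
  rw [C2.cHess_congr e1, cHess_log_one_add hf]
  exact psd_real_smul (Matrix.posSemidef_vecMulVec_self_star _) (by positivity)

/-- the mass inequality, for every Kähler form -/
theorem massF [T2Space X] [CompactSpace X] [ConnectedSpace X] (hχ : IsKahler χ)
    (hΛ : IsClosedForm Λ) (hnef : NefF Λ χ) (h0 : SmoothFn (n := n) N₀) (h1 : SmoothFn (n := n) N₁)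
    (hl : LocPair Λ q N₀ N₁) {g : D.FormM n X} (hg : IsKahler g) {η : X → ℝ}
    (hη : SmoothFn (n := n) η) (hη01 : ∀ x, η x ∈ Icc (0 : ℝ) 1) (hηs : ∀ x ∈ tsupport η, 0 < N₀ x) :
    H882.J g (fun x => η x * lapX g (vF N₀ N₁) x) ≤ q * mixX g Λ := by
  have hχH := hχ.toIsHermitian
  have hgH := hg.toIsHermitian
  have hq0 : (0 : ℝ) ≤ q := Nat.cast_nonneg q
  have cχ : Continuous (trX g χ) := sm_continuous (smoothFn_trX hgH hχH.isForm hχH.smooth)
  have key : ∀ ε₀ : ℝ, 0 < ε₀ → H882.J g (fun x => η x * lapX g (vF N₀ N₁) x) ≤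
      q * (mixX g Λ + ε₀ * mixX g χ) := by
    intro ε₀ hε₀
    obtain ⟨m, ρ, C, hm, hρ, hρ0, hnull, hC, hcurv⟩ := hnef ε₀ hε₀
    have cρ := sm_continuous hρ
    have step : ∀ δ : ℝ, 0 < δ → H882.J g (fun x => η x * lapX g (vF N₀ N₁) x) ≤
        q * (mixX g Λ + C * H882.J g (fun x => δ / (ρ x + δ) * trX g χ x) + ε₀ * mixX g χ) := by
      intro δ hδ
      have hlR := smooth_lR hρ hρ0 m hδ
      have hΘf : IsForm (thF Λ m ρ C δ χ) := isForm_thF hΛ hρ hρ0 C hδ hχH.isForm
      have cΘ : Continuous (trX g (thF Λ m ρ C δ χ)) :=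
        sm_continuous (smoothFn_trX hgH hΘf (smooth_thF hΛ hρ hρ0 C hδ hχH))
      set τ : X → ℝ := fun x => q * (trX g (thF Λ m ρ C δ χ) x + ε₀ * trX g χ x) with hτ
      have cτ : Continuous τ := continuous_const.mul (cΘ.add (continuous_const.mul cχ))
      have hpos : ∀ x, 0 ≤ trX g (thF Λ m ρ C δ χ) x + ε₀ * trX g χ x := by
        intro x
        have hx := at_chartAt (n := n) x
        rw [trX_eq hgH hΘf hx, trX_eq hgH hχH.isForm hx]
        have h2 := hcurv δ hδ _ x hx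
        have hsm : ContDiffAt ℝ 2 (fun z => Real.log (ρ ((chartAt (Cm n) x).symm z) + δ))
            (chartAt (Cm n) x x) := by
          refine ContDiffAt.of_le (n := ∞) ?_ (by norm_cast)
          refine ((hρ _ x hx).add contDiffAt_const).log ?_
          rw [hx.left_inv]
          have := hρ0 x
          linarith
        have e0 : cHess (fun y => lR m ρ δ ((chartAt (Cm n) x).symm y)) (chartAt (Cm n) x x) =
            (((m : ℝ)⁻¹ : ℝ) : ℂ) • hess (fun y => Real.log (ρ y + δ)) (chartAt (Cm n) x)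
              (chartAt (Cm n) x x) := cHess_const_mul _ hsm
        have e1 : thF Λ m ρ C δ χ (chartAt (Cm n) x) (chartAt (Cm n) x x) +
            ((ε₀ : ℝ) : ℂ) • χ (chartAt (Cm n) x) (chartAt (Cm n) x x) =
            Λ (chartAt (Cm n) x) (chartAt (Cm n) x x) + (((m : ℝ)⁻¹ : ℝ) : ℂ) •
              hess (fun y => Real.log (ρ y + δ)) (chartAt (Cm n) x) (chartAt (Cm n) x x) +
            ((C * (δ / (ρ x + δ)) + ε₀ : ℝ) : ℂ) • χ (chartAt (Cm n) x) (chartAt (Cm n) x x) := by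
          unfold thF addH
          rw [hx.left_inv, e0, add_assoc _ (_ • χ (chartAt (Cm n) x) (chartAt (Cm n) x x)),
            ← add_smul]
          congr 2
          push_cast
          ring
        have h3 : 0 ≤ ((g (chartAt (Cm n) x) (chartAt (Cm n) x x))⁻¹ *
            (thF Λ m ρ C δ χ (chartAt (Cm n) x) (chartAt (Cm n) x x) +
            ((ε₀ : ℝ) : ℂ) • χ (chartAt (Cm n) x) (chartAt (Cm n) x x))).trace.re := by
          rw [e1]
          exact (Complex.le_def.1 (C2.trace_mul_nonneg (hgH.posDef _ x hx).inv.posSemidef h2)).1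
        rw [tr_add, tr_smul] at h3
        exact h3
      have hτ0 : ∀ x, 0 ≤ τ x := fun x => mul_nonneg hq0 (hpos x)
      have hB : ∀ N : X → ℝ, SmoothFn (n := n) N → LocN Λ q N → BochF g τ (SF N q m ρ δ) := by
        intro N hN hlN x
        have h2 := boch (m := m) hg hχ hΛ hρ hρ0 hC hδ hN hlN x
        have h3 : 0 ≤ trX g χ x := by
          have hx := at_chartAt (n := n) x
          rw [trX_eq hgH hχH.isForm hx]
          exact (Complex.le_def.1 (C2.trace_mul_nonneg (hg.posDef _ x hx).inv.posSemidef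
            (hχ.posDef _ x hx).posSemidef)).1
        have h4 : 0 ≤ q * (ε₀ * trX g χ x) * SF N q m ρ δ x ^ 2 := by positivity
        simp only [hτ]
        nlinarith
      have hS0 : ∀ y, 0 < SF N₀ q m ρ δ y ↔ 0 < N₀ y := fun y => LocN.pos_iff y
      have hmass := H575.LC.massLe n X g hg (SF N₀ q m ρ δ) (SF N₁ q m ρ δ) τ (vF N₀ N₁)
        (smooth_SF h0 q hρ hρ0 m hδ) (smooth_SF h1 q hρ hρ0 m hδ)
        (fun y => mul_nonneg (hl.loc0.nonneg y) (Real.exp_pos _).le)
        (fun y => mul_nonneg (hl.loc1.nonneg y) (Real.exp_pos _).le) cτ hτ0 (hB N₀ h0 hl.loc0)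
        (hB N₁ h1 hl.loc1) (fun y _ => by
          unfold vF SF
          rw [mul_div_mul_right _ _ (Real.exp_pos _).ne'])
        (fun e y hy hy' => psd_vF h0 h1 hl hy ((hS0 y).1 hy')) η hη hη01
        (fun y hy => (hS0 y).2 (hηs y hy))
      refine hmass.trans (le_of_eq ?_)
      have c1 : Continuous (trX g (addH Λ (lR m ρ δ))) :=
        sm_continuous (smoothFn_trX hgH (closed_addH hΛ hlR).form (closed_addH hΛ hlR).smooth)
      have cη : Continuous fun x => δ / (ρ x + δ) :=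
        continuous_const.div (cρ.add continuous_const) fun x => by
          have := hρ0 x
          have h : 0 < ρ x + δ := by linarith
          exact h.ne'
      have c2 : Continuous fun x => C * (δ / (ρ x + δ) * trX g χ x) :=
        continuous_const.mul (cη.mul cχ)
      have hg0 : mixX g (addH Λ (lR m ρ δ)) = mixX g Λ := by
        have h := Vale.Agent.P281.H227.GMC.cohPart n X g Λ (INT.IsKahler.isClosedForm hg) hΛ
          (fun _ => 0) _ (smoothFn_const 0) hlR
        have h0 : addH g (fun _ => 0) = g := by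
          funext e z
          have h := hess_const' (n := n) (X := X) 0 e z
          have h' : cHess (fun y : Cm n => (fun _ : X => (0 : ℝ)) (e.symm y)) z = 0 := h
          simp only [addH]
          rw [h', add_zero]
        rw [h0] at h
        exact h
      have e1 : H882.J g (trX g (thF Λ m ρ C δ χ)) =
          mixX g Λ + C * H882.J g (fun x => δ / (ρ x + δ) * trX g χ x) := by
        have e2 : trX g (thF Λ m ρ C δ χ) = fun x => trX g (addH Λ (lR m ρ δ)) x +
            C * (δ / (ρ x + δ) * trX g χ x) :=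
          funext fun x => trX_thF hgH hΛ hρ hρ0 C hδ hχH.isForm x
        rw [e2, J_add hgH c1 c2, J_const_mul]
        congr 1
        exact (J_trX hgH (closed_addH hΛ hlR).form).trans hg0
      simp only [hτ]
      have c3 : Continuous fun x => ε₀ * trX g χ x := continuous_const.mul cχ
      rw [J_const_mul, J_add hgH cΘ c3, J_const_mul, e1]
      congr 2
      congr 1
      exact J_trX hgH hχH.isForm
    have hlim := (((Vale.Agent.P281.H227.SB.tendsto_mass hgH cρ hρ0 hnull cχ).const_mul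
      C).const_add (mixX g Λ)).add_const (ε₀ * mixX g χ)
    have hlim2 := hlim.const_mul (q : ℝ)
    rw [mul_zero, add_zero] at hlim2
    refine ge_of_tendsto hlim2 ?_
    filter_upwards [self_mem_nhdsWithin] with δ hδ using step δ hδ
  have hc : Tendsto (fun t : ℝ => q * (mixX g Λ + t * mixX g χ)) (𝓝[>] 0)
      (𝓝 (q * (mixX g Λ + 0 * mixX g χ))) := by
    have h1 : Continuous fun t : ℝ => q * (mixX g Λ + t * mixX g χ) := by fun_prop
    exact (h1.tendsto 0).mono_left nhdsWithin_le_nhds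
  rw [zero_mul, add_zero] at hc
  refine ge_of_tendsto hc ?_
  filter_upwards [self_mem_nhdsWithin] with t ht using key t ht

end Vale.Agent.P281.H167.NU
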