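import Vale.Agent.P281.H167.NU.FC
import Vale.Agent.P281.H413.NU.Rows
import Vale.Agent.P281.H413.ML.Eff

/-! P281, theorem NU, row N9 (the fibre side): the local inequality. -/

open scoped Manifold ContDiff ComplexOrder Topology
open Complex Set Filter MeasureTheory

set_option linter.all false

noncomputable section

namespace Vale.Agent.P281.H167.NU

open Vale.Agent.P272.K Vale.Agent.P272.K.AMP Vale.Agent.P299.D Vale.Agent.P299 Vale.Agent.P299.H882
open Vale.Agent.P281.H167.SA Vale.Agent.P281.H167.GM Vale.Agent.P281.H713.KD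
open INT (IsDensity intX IsClosedForm)

variable {n : ℕ} {X : Type} [TopologicalSpace X] [ChartedSpace (Cm n) X]
  [IsManifold 𝓘(ℂ, Cm n) ω X] {Λ χ : D.FormM n X} {q : ℕ}

/-- the Laplacian of `log (1 + |h|²)` -/
lemma lap_vF [T2Space X] {g : D.FormM n X} (hg : IsHermitian g) {N₀ N₁ : X → ℝ}
    (h0 : SmoothFn (n := n) N₀) (h1 : SmoothFn (n := n) N₁) (hp : ∀ x, 0 ≤ N₁ x)
    {e : Chart n X} {y : X} (hy : At e y) (hy0 : 0 < N₀ y) {h : Cm n → ℂ}
    (hh : AnalyticAt ℂ h (e y)) (hev : ∀ᶠ z in 𝓝 (e y), N₁ (e.symm z) = N₀ (e.symm z) * ‖h z‖ ^ 2) :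
    qf (g e (e y)) (fun j => dz j h (e y)) = (1 + ‖h (e y)‖ ^ 2) ^ 2 * lapX g (vF N₀ N₁) y := by
  have c0 := INT.SmoothFn.continuous h0
  rw [LC.lapX_loc hg (V := {x | 0 < N₀ x}) (isOpen_lt continuous_const c0)
    (fun e y hy hyV => smooth_vF h0 h1 hp e y hy hyV) hy hy0]
  have h4 : Tendsto e.symm (𝓝 (e y)) (𝓝 y) := by
    have := e.continuousAt_symm (e.map_source hy.2)
    rwa [ContinuousAt, hy.left_inv] at this
  have e1 : (fun z => vF N₀ N₁ (e.symm z)) =ᶠ[𝓝 (e y)] fun z => Real.log (1 + ‖h z‖ ^ 2) := by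
    filter_upwards [hev, h4.eventually (c0.continuousAt.eventually (lt_mem_nhds hy0))] with z hz hz0
    unfold vF
    rw [hz, mul_div_cancel_left₀ _ hz0.ne']
  have e2 : hess (vF N₀ N₁) e (e y) = ((((1 + ‖h (e y)‖ ^ 2) ^ 2)⁻¹ : ℝ) : ℂ) •
      Matrix.vecMulVec (fun j => dz j h (e y)) (star (fun j => dz j h (e y))) := by
    show cHess (fun z => vF N₀ N₁ (e.symm z)) (e y) = _
    rw [C2.cHess_congr e1, cHess_log_one_add hh]
  rw [e2, H413.NU.qf_smul_eq, mul_inv_cancel_left₀ (by positivity)]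

lemma contAt_det {ι : Type} [Fintype ι] [DecidableEq ι] {M : Cm n → Matrix ι ι ℂ} {z : Cm n}
    (h : ∀ i j, ContinuousAt (fun z => M z i j) z) : ContinuousAt (fun z => (M z).det) z := by
  simp only [Matrix.det_apply]
  exact tendsto_finset_sum _ fun σ _ =>
    (tendsto_finset_prod _ fun i _ => h (σ i) i).const_smul _

lemma contAt_bdet {p : ℕ} {b : Cm n → Matrix (Fin p) (Fin n) ℂ}
    {A : Cm n → Matrix (Fin n) (Fin n) ℂ} {z : Cm n} (hb : ∀ a k, ContinuousAt (fun z => b z a k) z)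
    (hA : ∀ i j, ContinuousAt (fun z => A z i j) z) :
    ContinuousAt (fun z => H342.NU.bdet (b z) (A z)) z := by
  have h1 : ContinuousAt (fun z => (Matrix.fromBlocks (A z).transpose (b z).conjTranspose (b z)
      0).det) z := by
    refine contAt_det fun i j => ?_
    rcases i with i | i <;> rcases j with j | j
    · exact hA j i
    · exact (hb j i).star
    · exact hb i j
    · exact continuousAt_const
  exact Complex.continuous_re.continuousAt.comp (continuousAt_const.mul h1)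

/-- the rows of `dh` -/
def rowsH {κ : ℕ} (h : Fin κ → Cm n → ℂ) (z : Cm n) : Matrix (Fin κ) (Fin n) ℂ :=
  Matrix.of fun a k => dz k (h a) z

lemma gram_pos {p : ℕ} {b : Matrix (Fin p) (Fin n) ℂ} (hb : LinearIndependent ℂ b)
    {A : Matrix (Fin n) (Fin n) ℂ} (hA : A.PosDef) : 0 < gramD b A := by
  unfold gramD
  have h1 : (b * (A⁻¹).transpose * b.conjTranspose).PosDef :=
    hA.inv.transpose.mul_mul_conjTranspose_same (Matrix.vecMul_injective_iff.2 hb)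
  exact (Complex.lt_def.1 h1.det_pos).1

lemma tr_le {G β : Matrix (Fin n) (Fin n) ℂ} (hG : G.PosDef) (h : (G - β).PosSemidef) :
    (G⁻¹ * β).trace.re ≤ n := by
  have h1 := (Complex.le_def.1 (C2.trace_mul_nonneg hG.inv.posSemidef h)).1
  rw [Matrix.mul_sub, Matrix.nonsing_inv_mul _ (hG.det_pos.ne'.isUnit), Matrix.trace_sub,
    Matrix.trace_one, Complex.sub_re] at h1
  simp at h1
  exact h1

lemma tr_nonneg {G β : Matrix (Fin n) (Fin n) ℂ} (hG : G.PosDef) (h : β.PosSemidef) :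
    0 ≤ (G⁻¹ * β).trace.re :=
  (Complex.le_def.1 (C2.trace_mul_nonneg hG.inv.posSemidef h)).1

/-- volumes -/
lemma vol_le {G β : Matrix (Fin n) (Fin n) ℂ} (hG : G.PosDef) (hβ : β.PosDef)
    (h : (G - β).PosSemidef) : β.det.re ≤ ((n : ℝ) + 1) ^ n * G.det.re := by
  have htr := tr_le hG h
  have htr0 := tr_nonneg hG hβ.posSemidef
  have hGd : 0 ≤ G.det.re := (Complex.le_def.1 hG.det_pos.le).1
  have h2 := H413.NU.gram_le (b := (0 : Matrix (Fin 0) (Fin n) ℂ)) hG hβ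
  have h3 : ∀ A : Matrix (Fin n) (Fin n) ℂ, gramD (0 : Matrix (Fin 0) (Fin n) ℂ) A = 1 := by
    intro A
    unfold gramD
    rw [Matrix.det_isEmpty]
    rfl
  rw [h3, h3, one_mul, one_mul, Nat.sub_zero] at h2
  exact h2.trans (mul_le_mul_of_nonneg_right (pow_le_pow_left₀ htr0 (by linarith) n) hGd)

/-- monotonicity of the bordered determinant, up to a constant -/
lemma gram_low {p : ℕ} (b : Matrix (Fin p) (Fin n) ℂ) {G β : Matrix (Fin n) (Fin n) ℂ}
    (hG : G.PosDef) (hβ : β.PosDef) (h : (G - β).PosSemidef) :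
    gramD b β * β.det.re ≤ ((n : ℝ) + 1) ^ (n - p) * (gramD b G * G.det.re) := by
  have htr := tr_le hG h
  have htr0 := tr_nonneg hG hβ.posSemidef
  have hGd : 0 ≤ G.det.re := (Complex.le_def.1 hG.det_pos.le).1
  have h2 := H413.NU.gram_le (b := b) hG hβ
  have hg0 : 0 ≤ gramD b G := H413.NU.gram_nonneg hG
  have h4 : (G⁻¹ * β).trace.re ^ (n - p) ≤ ((n : ℝ) + 1) ^ (n - p) :=
    pow_le_pow_left₀ htr0 (by linarith) _
  calc gramD b β * β.det.re ≤ gramD b G * (G⁻¹ * β).trace.re ^ (n - p) * G.det.re := h2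
    _ ≤ gramD b G * ((n : ℝ) + 1) ^ (n - p) * G.det.re :=
        mul_le_mul_of_nonneg_right (mul_le_mul_of_nonneg_left h4 hg0) hGd
    _ = _ := by ring

/-- the pointwise inequality -/
lemma pt_up {p : ℕ} (b : Matrix (Fin p) (Fin n) ℂ) {g G χ : Matrix (Fin n) (Fin n) ℂ}
    (hg : g.PosDef) (hG : G.PosDef) (hχ : χ.PosDef) {t c : Fin p → ℝ}
    (ht : ∀ a, qf g (b a) ≤ c a * t a) : gramD b G * G.det.re ≤
      (p.factorial * ∏ a, c a) * ((g⁻¹ * G).trace.re ^ (n - p) * ∏ a, t a) * g.det.re := by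
  have h6 := H413.NU.pt_le (b := b) hg hG hχ (le_refl p) (C := 1)
    (fun a ha => absurd a.2 (not_lt.2 ha)) (fun a => c a * t a) (fun a => ht a)
  rw [Nat.sub_self, pow_zero, pow_zero, mul_one, mul_one, Finset.prod_mul_distrib] at h6
  refine h6.trans (le_of_eq ?_)
  ring

/-- the rows are independent -/
lemma rows_indep {κ : ℕ} {h : Fin κ → Cm n → ℂ} {z : Cm n} (hh : ∀ a, AnalyticAt ℂ (h a) z)
    (hi : LinearIndependent ℂ fun a => fderiv ℂ (h a) z) :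
    LinearIndependent ℂ (fun a => rowsH h z a) := by
  have hrow : ∀ a k, rowsH h z a k = fderiv ℂ (h a) z (Pi.single k 1) := fun a k =>
    dz_of_holo (hh a).differentiableAt
  rw [Fintype.linearIndependent_iff]
  intro c hc
  refine Fintype.linearIndependent_iff.1 hi c ?_
  refine ContinuousLinearMap.coe_injective ((Pi.basisFun ℂ (Fin n)).ext fun k => ?_)
  have h2 := congrFun hc k
  rw [Finset.sum_apply] at h2
  rw [Pi.basisFun_apply, ContinuousLinearMap.coe_coe, ContinuousLinearMap.sum_apply]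
  have h3 : ∀ a, (c a • fderiv ℂ (h a) z) (Pi.single k 1) = (c a • rowsH h z a) k := fun a => by
    rw [Pi.smul_apply, hrow a k]
    rfl
  rw [Finset.sum_congr rfl fun a _ => h3 a, h2]
  rfl

/-- the neighbourhood -/
theorem local_nbhd [T2Space X] (hχ : IsKahler χ) {β : D.FormM n X} (hβ : IsClosedForm β)
    (hβ0 : ∀ e x, At e x → (β e (e x)).PosSemidef)
    {κ : ℕ} {x₀ : X} {e : Chart n X} (he : At e x₀) (hP : (β e (e x₀)).PosDef)
    {h : Fin κ → Cm n → ℂ} (hh : ∀ a, AnalyticAt ℂ (h a) (e x₀))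
    (hi : LinearIndependent ℂ fun a => fderiv ℂ (h a) (e x₀)) :
    ∃ c₁ c₂ c₃ : ℝ, 0 < c₁ ∧ 0 < c₂ ∧ 0 < c₃ ∧ ∀ᶠ y in 𝓝 x₀, At e y ∧ (β e (e y)).PosDef ∧
      c₁ < gramD (rowsH h (e y)) (β e (e y)) * (β e (e y)).det.re ∧ (χ e (e y)).det.re < c₂ ∧
      c₃ < (β e (e y)).det.re ∧
      ∀ a, (1 + ‖h a (e y)‖ ^ 2) ^ 2 < (1 + ‖h a (e x₀)‖ ^ 2) ^ 2 + 1 := by
  have hχH := hχ.toIsHermitian
  have hb := rows_indep hh hi
  have hgp := gram_pos hb hP
  have hrc : ∀ a k, ContinuousAt (fun z => rowsH h z a k) (e x₀) := by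
    intro a k
    have h2 : ContDiffAt ℂ ω (h a) (e x₀) := (hh a).contDiffAt
    exact (contDiffAt_dz (m := 0) (r := 1) ((h2.restrict_scalars ℝ).of_le le_top)
      (by simp)).continuousAt
  have hβc : ∀ i j, ContinuousAt (fun z => β e z i j) (e x₀) := fun i j =>
    (hβ.smooth e x₀ he i j).continuousAt
  have hcb : ContinuousAt (fun z => H342.NU.bdet (rowsH h z) (β e z)) (e x₀) :=
    contAt_bdet hrc hβc
  have hce : ContinuousAt (fun y => e y) x₀ := e.continuousAt he.2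
  -- the bounds
  have hβp : 0 < (β e (e x₀)).det.re := by
    have := (Complex.lt_def.1 hP.det_pos).1
    simpa using this
  have hB : 0 < H342.NU.bdet (rowsH h (e x₀)) (β e (e x₀)) := by
    rw [H413.NU.bdet_eq _ hP]
    exact mul_pos hβp hgp
  have ev1 : ∀ᶠ y in 𝓝 x₀, H342.NU.bdet (rowsH h (e x₀)) (β e (e x₀)) / 2 <
      H342.NU.bdet (rowsH h (e y)) (β e (e y)) :=
    hce.eventually (hcb.eventually (lt_mem_nhds (half_lt_self hB)))
  have hcd : ContinuousAt (fun z => (χ e z).det.re) (e x₀) :=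
    Complex.continuous_re.continuousAt.comp
      (contDiffAt_det (m := ∞) (hχH.smooth e x₀ he)).continuousAt
  have hdp : 0 < (χ e (e x₀)).det.re := hχH.det_re_pos he
  have ev2 : ∀ᶠ y in 𝓝 x₀, (χ e (e y)).det.re < (χ e (e x₀)).det.re + 1 :=
    hce.eventually (hcd.eventually (gt_mem_nhds (lt_add_one _)))
  have ev3 : ∀ᶠ y in 𝓝 x₀, ∀ a, (1 + ‖h a (e y)‖ ^ 2) ^ 2 < (1 + ‖h a (e x₀)‖ ^ 2) ^ 2 + 1 := by
    refine eventually_all.2 fun a => ?_
    have h2 : ContinuousAt (fun z => (1 + ‖h a z‖ ^ 2) ^ 2) (e x₀) :=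
      ((continuousAt_const.add (((hh a).continuousAt.norm).pow 2)).pow 2)
    exact hce.eventually (h2.eventually (gt_mem_nhds (lt_add_one _)))
  have ev7 := ev_posDef hβ hβ0 he hP
  have hcβ : ContinuousAt (fun z => (β e z).det.re) (e x₀) :=
    Complex.continuous_re.continuousAt.comp
      (contDiffAt_det (m := ∞) (hβ.smooth e x₀ he)).continuousAt
  have ev9 : ∀ᶠ y in 𝓝 x₀, (β e (e x₀)).det.re / 2 < (β e (e y)).det.re :=
    hce.eventually (hcβ.eventually (lt_mem_nhds (half_lt_self hβp)))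
  refine ⟨_, _, _, half_pos hB, add_pos hdp one_pos, half_pos hβp, ?_⟩
  filter_upwards [ev1, ev2, ev3, ev7, ev9] with y k1 k2 k3 k7 k9
  rw [H413.NU.bdet_eq _ k7.2, mul_comm (β e (e y)).det.re] at k1
  exact ⟨k7.1, k7.2, k1, k2, k9, k3⟩

/-- **the local inequality** -/
theorem local_ineq [T2Space X] (hχ : IsKahler χ) {β : D.FormM n X} (hβ : IsClosedForm β)
    (hβ0 : ∀ e x, At e x → (β e (e x)).PosSemidef)
    {κ : ℕ} {N₀ N₁ : Fin κ → X → ℝ} (h0 : ∀ a, SmoothFn (n := n) (N₀ a))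
    (h1 : ∀ a, SmoothFn (n := n) (N₁ a)) (hp : ∀ a x, 0 ≤ N₁ a x) {x₀ : X}
    (hx0 : ∀ a, 0 < N₀ a x₀) {e : Chart n X} (he : At e x₀)
    (hP : (β e (e x₀)).PosDef)
    {h : Fin κ → Cm n → ℂ} (hh : ∀ a, AnalyticAt ℂ (h a) (e x₀))
    (hev : ∀ᶠ z in 𝓝 (e x₀), ∀ a, N₁ a (e.symm z) = N₀ a (e.symm z) * ‖h a z‖ ^ 2)
    (hi : LinearIndependent ℂ fun a => fderiv ℂ (h a) (e x₀)) :
    ∃ K : ℝ, 0 < K ∧ ∀ᶠ y in 𝓝 x₀, At e y ∧ (∀ a, 0 < N₀ a y) ∧ ∀ G : D.FormM n X, IsKahler G →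
      (G e (e y) - β e (e y)).PosSemidef → (χ e (e y)).det.re ≤ K * (G e (e y)).det.re ∧
      ∀ g : D.FormM n X, IsKahler g → (χ e (e y)).det.re ≤
        K * (trX g G y ^ (n - κ) * ∏ a, lapX g (vF (N₀ a) (N₁ a)) y) * (g e (e y)).det.re := by
  obtain ⟨c₁, c₂, c₃, hc₁, hc₂, hc₃, hnb⟩ := local_nbhd hχ hβ hβ0 he hP hh hi
  have hce : ContinuousAt (fun y => e y) x₀ := e.continuousAt he.2
  have ev4 : ∀ᶠ y in 𝓝 x₀, ∀ a, AnalyticAt ℂ (h a) (e y) :=
    eventually_all.2 fun a => hce.eventually (hh a).eventually_analyticAt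
  have ev5 : ∀ᶠ y in 𝓝 x₀, ∀ᶠ z in 𝓝 (e y), ∀ a,
      N₁ a (e.symm z) = N₀ a (e.symm z) * ‖h a z‖ ^ 2 :=
    hce.eventually (eventually_eventually_nhds.2 hev)
  have ev6 : ∀ᶠ y in 𝓝 x₀, ∀ a, 0 < N₀ a y :=
    eventually_all.2 fun a => (INT.SmoothFn.continuous (h0 a)).continuousAt.eventually
      (lt_mem_nhds (hx0 a))
  set c₄ : ℝ := κ.factorial * ∏ a, ((1 + ‖h a (e x₀)‖ ^ 2) ^ 2 + 1) with hc₄
  have hc₄p : 0 < c₄ := mul_pos (by exact_mod_cast κ.factorial_pos)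
    (Finset.prod_pos fun a _ => by positivity)
  set K₁ : ℝ := c₂ / c₁ * ((n : ℝ) + 1) ^ (n - κ) * c₄ with hK₁
  set K₂ : ℝ := c₂ / c₃ * ((n : ℝ) + 1) ^ n with hK₂
  refine ⟨max K₁ K₂, lt_max_of_lt_left (by positivity), ?_⟩
  filter_upwards [hnb, ev4, ev5, ev6] with y k k4 k5 k6
  obtain ⟨hy, hβy, k1, k2, k9, k3⟩ := k
  refine ⟨hy, k6, fun G hG hGβ => ?_⟩
  have hGy := hG.posDef e y hy
  have hGd : 0 < (G e (e y)).det.re := hG.toIsHermitian.det_re_pos hy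
  refine ⟨?_, fun g hg => ?_⟩
  · have h5 : c₃ ≤ ((n : ℝ) + 1) ^ n * (G e (e y)).det.re := k9.le.trans (vol_le hGy hβy hGβ)
    calc (χ e (e y)).det.re ≤ c₂ := k2.le
      _ = c₂ / c₃ * c₃ := by field_simp
      _ ≤ c₂ / c₃ * (((n : ℝ) + 1) ^ n * (G e (e y)).det.re) :=
          mul_le_mul_of_nonneg_left h5 (by positivity)
      _ = K₂ * (G e (e y)).det.re := by rw [hK₂]; ring
      _ ≤ max K₁ K₂ * (G e (e y)).det.re := mul_le_mul_of_nonneg_right (le_max_right _ _) hGd.le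
  · have hgy := hg.posDef e y hy
    have hgH := hg.toIsHermitian
    have hgd : 0 < (g e (e y)).det.re := hgH.det_re_pos hy
    have hlap0 : ∀ a, 0 ≤ lapX g (vF (N₀ a) (N₁ a)) y ∧ qf (g e (e y)) (rowsH h (e y) a) ≤
        ((1 + ‖h a (e x₀)‖ ^ 2) ^ 2 + 1) * lapX g (vF (N₀ a) (N₁ a)) y := by
      intro a
      have h6 := lap_vF hgH (h0 a) (h1 a) (hp a) hy (k6 a) (k4 a) (k5.mono fun z hz => hz a)
      have h7 : 0 ≤ qf (g e (e y)) (fun j => dz j (h a) (e y)) := qf_nonneg hgy _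
      have h8 : 0 ≤ lapX g (vF (N₀ a) (N₁ a)) y := by
        rw [h6] at h7
        exact nonneg_of_mul_nonneg_right h7 (by positivity)
      refine ⟨h8, ?_⟩
      have h9 : qf (g e (e y)) (rowsH h (e y) a) = (1 + ‖h a (e y)‖ ^ 2) ^ 2 *
          lapX g (vF (N₀ a) (N₁ a)) y := h6
      rw [h9]
      exact mul_le_mul_of_nonneg_right (k3 a).le h8
    have h5 : c₁ ≤ ((n : ℝ) + 1) ^ (n - κ) * (gramD (rowsH h (e y)) (G e (e y)) *
        (G e (e y)).det.re) := k1.le.trans (gram_low _ hGy hβy hGβ)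
    have h6 := pt_up (rowsH h (e y)) hgy hGy (hχ.posDef e y hy) (fun a => (hlap0 a).2)
    have htg : ((g e (e y))⁻¹ * G e (e y)).trace.re = trX g G y := by
      rw [trX_eq hgH hG.toIsHermitian.isForm hy]
      rfl
    rw [htg] at h6
    have hT0 : 0 ≤ trX g G y := by
      rw [← htg]
      exact tr_nonneg hgy hGy.posSemidef
    set P : ℝ := trX g G y ^ (n - κ) * ∏ a, lapX g (vF (N₀ a) (N₁ a)) y with hPd
    have hP0 : 0 ≤ P := mul_nonneg (pow_nonneg hT0 _) (Finset.prod_nonneg fun a _ => (hlap0 a).1)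
    calc (χ e (e y)).det.re ≤ c₂ := k2.le
      _ = c₂ / c₁ * c₁ := by field_simp
      _ ≤ c₂ / c₁ * (((n : ℝ) + 1) ^ (n - κ) * (gramD (rowsH h (e y)) (G e (e y)) *
            (G e (e y)).det.re)) := mul_le_mul_of_nonneg_left h5 (by positivity)
      _ ≤ c₂ / c₁ * (((n : ℝ) + 1) ^ (n - κ) * (c₄ * P * (g e (e y)).det.re)) :=
          mul_le_mul_of_nonneg_left (mul_le_mul_of_nonneg_left h6 (by positivity)) (by positivity)
      _ = K₁ * P * (g e (e y)).det.re := by rw [hK₁]; ring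
      _ ≤ max K₁ K₂ * P * (g e (e y)).det.re :=
          mul_le_mul_of_nonneg_right (mul_le_mul_of_nonneg_right (le_max_left _ _) hP0) hgd.le

end Vale.Agent.P281.H167.NU
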