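import Vale.Agent.P281.H167.NU.FK

/-! P281, theorem NU, row N9 (the fibre side): the growth of the volume. -/

open scoped Manifold ContDiff ComplexOrder Topology
open Complex Set Filter MeasureTheory

set_option linter.all false

noncomputable section

namespace Vale.Agent.P281.H167.NU

open Vale.Agent.P272.K Vale.Agent.P272.K.AMP Vale.Agent.P299.D Vale.Agent.P299 Vale.Agent.P299.H882
open Vale.Agent.P281.H167.SA Vale.Agent.P281.H167.GM Vale.Agent.P281.H713.KD
open INT (IsDensity intX IsClosedForm)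

variable {n : ℕ} {X : Type} [TopologicalSpace X] [T2Space X] [CompactSpace X] [ConnectedSpace X]
  [ChartedSpace (Cm n) X] [IsManifold 𝓘(ℂ, Cm n) ω X] {Λ χ θ β : D.FormM n X} {q : ℕ}

lemma addH_zero (A : D.FormM n X) : addH A (fun _ => 0) = A := by
  funext e z
  have h := hess_const' (n := n) (X := X) 0 e z
  have h' : cHess (fun y : Cm n => (fun _ : X => (0 : ℝ)) (e.symm y)) z = 0 := h
  simp only [addH]
  rw [h', add_zero]

lemma coh_left {A B : D.FormM n X} (hA : IsClosedForm A) (hB : IsClosedForm B) {U : X → ℝ}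
    (hU : SmoothFn (n := n) U) : mixX (addH A U) B = mixX A B := by
  have h := Vale.Agent.P281.H227.GMC.cohPart n X A B hA hB U (fun _ => 0) hU (smoothFn_const 0)
  rwa [addH_zero] at h

lemma mix_self {A : D.FormM n X} (hA : IsHermitian A) : mixX A A = n * H882.J A (fun _ => 1) := by
  have h1 : H882.J A (trX A A) = mixX A A := J_trX hA hA.isForm
  rw [← h1, ← J_const_mul]
  unfold H882.J
  refine INT.intX_congr fun e x hx => ?_
  beta_reduce
  rw [hx.left_inv, trX_eq hA hA.isForm hx, mul_one]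
  unfold trE
  have h1 : ((A e (e x))⁻¹ * A e (e x)) = 1 :=
    Matrix.nonsing_inv_mul _ ((hA.posDef _ x hx).det_pos.ne'.isUnit)
  rw [h1, Matrix.trace_one]
  simp

lemma mix_nonneg {G B : D.FormM n X} (hG : IsKahler G) (hB : IsClosedForm B)
    (hB0 : ∀ e x, At e x → (B e (e x)).PosSemidef) : 0 ≤ mixX G B := by
  have hGH := hG.toIsHermitian
  have h1 : H882.J G (trX G B) = mixX G B := J_trX hGH hB.form
  rw [← h1]
  refine J_nonneg hGH fun x => ?_
  have hx := at_chartAt (n := n) x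
  rw [trX_eq hGH hB.form hx]
  exact (Complex.le_def.1 (C2.trace_mul_nonneg (hG.posDef _ x hx).inv.posSemidef (hB0 _ x hx))).1

/-- a Kähler form `≥ β` in the class of `β + s θ + t χ` -/
lemma exists_G (hχ : IsKahler χ) (hθ : IsClosedForm θ) (hβ : IsClosedForm β)
    (hβ0 : ∀ e x, At e x → (β e (e x)).PosSemidef)
    (hθn : ∀ ε : ℝ, 0 < ε → ∃ ψ : X → ℝ, SmoothFn (n := n) ψ ∧ ∀ e x, At e x →
      (θ e (e x) + hess ψ e (e x) + (ε : ℂ) • χ e (e x)).PosSemidef) {s t : ℝ} (hs : 0 < s)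
    (ht : 0 < t) : ∃ U : X → ℝ, SmoothFn (n := n) U ∧
      IsKahler (addH (addF (addF β s θ) t χ) U) ∧ ∀ e x, At e x →
        (addH (addF (addF β s θ) t χ) U e (e x) - β e (e x)).PosSemidef := by
  obtain ⟨ψ, hψ, hψp⟩ := hθn (t / (2 * s)) (by positivity)
  have hχc := INT.IsKahler.isClosedForm hχ
  have hA : IsClosedForm (addF (addF β s θ) t χ) := isClosed_addF (isClosed_addF hβ hθ s) hχc t
  set U : X → ℝ := fun x => s * ψ x with hUd
  have hU : SmoothFn (n := n) U := fun e x hx => contDiffAt_const.mul (hψ e x hx)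
  have hform : ∀ e x, At e x → addH (addF (addF β s θ) t χ) U e (e x) = β e (e x) +
      (((s : ℝ) : ℂ) • (θ e (e x) + hess ψ e (e x) + ((t / (2 * s) : ℝ) : ℂ) • χ e (e x)) +
        ((t / 2 : ℝ) : ℂ) • χ e (e x)) := by
    intro e x hx
    have h1 : cHess (fun y => U (e.symm y)) (e x) = ((s : ℝ) : ℂ) • hess ψ e (e x) :=
      cHess_const_mul _ ((hψ e x hx).of_le (by norm_cast))
    show β e (e x) + (s : ℂ) • θ e (e x) + (t : ℂ) • χ e (e x) +
      cHess (fun y => U (e.symm y)) (e x) = _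
    rw [h1]
    have hs' : (s : ℂ) ≠ 0 := by exact_mod_cast hs.ne'
    push_cast
    have e2 : (s : ℂ) • ((t : ℂ) / (2 * s)) • χ e (e x) = ((t : ℂ) / 2) • χ e (e x) := by
      rw [smul_smul]
      congr 1
      field_simp
    rw [smul_add, smul_add, e2]
    have e3 : (t : ℂ) • χ e (e x) = ((t : ℂ) / 2) • χ e (e x) + ((t : ℂ) / 2) • χ e (e x) := by
      rw [← add_smul]
      congr 1
      ring
    rw [e3]
    abel
  have hpd : ∀ e x, At e x → (((s : ℝ) : ℂ) • (θ e (e x) + hess ψ e (e x) +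
      ((t / (2 * s) : ℝ) : ℂ) • χ e (e x)) + ((t / 2 : ℝ) : ℂ) • χ e (e x)).PosDef := by
    intro e x hx
    have ht2 : (0 : ℝ) < t / 2 := by positivity
    exact Matrix.PosDef.posSemidef_add (psd_real_smul (hψp e x hx) hs.le)
      ((hχ.posDef e x hx).smul (by exact_mod_cast ht2))
  refine ⟨U, hU, ?_, fun e x hx => ?_⟩
  · refine isKahler_of_closed' (H413.FC.closed_addH hA hU) fun e x hx => ?_
    rw [hform e x hx]
    exact Matrix.PosDef.posSemidef_add (hβ0 e x hx) (hpd e x hx)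
  · rw [hform e x hx, add_sub_cancel_left]
    exact (hpd e x hx).posSemidef

section main

variable (hχ : IsKahler χ) (hΛ : IsClosedForm Λ) (hnef : NefF Λ χ) (hθ : IsClosedForm θ)
  (hβ : IsClosedForm β) (hβ0 : ∀ e x, At e x → (β e (e x)).PosSemidef)
  {κ : ℕ} (hκ : 0 < κ) {N₀ N₁ : Fin κ → X → ℝ} (h0 : ∀ a, SmoothFn (n := n) (N₀ a))
  (h1 : ∀ a, SmoothFn (n := n) (N₁ a)) (hl : ∀ a, LocPair Λ q (N₀ a) (N₁ a))
  {x₀ : X} (hx0 : ∀ a, 0 < N₀ a x₀) {e : Chart n X} (he : At e x₀)
  (hP : (β e (e x₀)).PosDef) {h : Fin κ → Cm n → ℂ} (hh : ∀ a, AnalyticAt ℂ (h a) (e x₀))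
  (hev : ∀ᶠ z in 𝓝 (e x₀), ∀ a, N₁ a (e.symm z) = N₀ a (e.symm z) * ‖h a z‖ ^ 2)
  (hi : LinearIndependent ℂ fun a => fderiv ℂ (h a) (e x₀))

include hχ hΛ hnef hβ hβ0 hκ h0 h1 hl hx0 he hP hh hev hi in
/-- one Kähler form `G ≥ β` -/
theorem step_G : ∃ K c₀ : ℝ, 0 < K ∧ 0 < c₀ ∧ κ ≤ n ∧ ∀ G : D.FormM n X, IsKahler G →
    (∀ e x, At e x → (G e (e x) - β e (e x)).PosSemidef) → 0 ≤ q * mixX G Λ ∧
      c₀ ≤ mixX G G ∧ c₀ * mixX G G ^ (κ - 1) ≤ K * (q * mixX G Λ) ^ κ := by
  obtain ⟨K, hK, hloc⟩ := local_ineq hχ hβ hβ0 h0 h1 (fun a => (hl a).loc1.nonneg) hx0 he hP hh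
    hev hi
  have hκn : κ ≤ n := by
    have h2 := (rows_indep hh hi).fintype_card_le_finrank
    simpa using h2
  have hn0 : 0 < n := lt_of_lt_of_le hκ hκn
  obtain ⟨η, hη, hη0, hη1, hηx, hηs⟩ := H413.MFS.exists_bump (n := n) hloc
  have hχH := hχ.toIsHermitian
  have cη := sm_continuous hη
  set B : X → ℝ := fun x => η x ^ κ with hBd
  have hB : SmoothFn (n := n) B := fun e x hx => (hη e x hx).pow κ
  have hB0 : ∀ x, 0 ≤ B x := fun x => pow_nonneg (hη0 x) κ
  have hB1 : ∀ x, B x ≤ 1 := fun x => pow_le_one₀ (hη0 x) (hη1 x)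
  have hJB : 0 < H882.J χ B := J_pos_of hχH (sm_continuous hB) hB0 (x := x₀) (by
    have := hηx.self_of_nhds
    simp only [hBd]
    rw [this, one_pow]
    exact one_pos)
  have hne : ∀ x, η x ≠ 0 → x ∈ tsupport η := fun x hx => subset_tsupport _ hx
  have hnR : (0 : ℝ) < n := by exact_mod_cast hn0
  set c₀ : ℝ := min (n * (H882.J χ B / K)) (H882.J χ B / n ^ (n - 1)) with hc₀
  have hc₀p : 0 < c₀ := lt_min (by positivity) (by positivity)
  refine ⟨K, c₀, hK, hc₀p, hκn, fun G hG hGβ => ?_⟩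
  have hGH := hG.toIsHermitian
  have hGc := INT.IsKahler.isClosedForm hG
  -- the functions `T`
  set T : Fin κ → D.FormM n X → X → ℝ := fun a g x => η x * lapX g (vF (N₀ a) (N₁ a)) x with hTd
  have hT : ∀ g : D.FormM n X, IsKahler g → ∀ a, Continuous (T a g) ∧ (∀ x, 0 ≤ T a g x) ∧
      H882.J g (T a g) ≤ q * mixX g Λ := by
    intro g hg a
    have hgH := hg.toIsHermitian
    have hVo : IsOpen {x | 0 < N₀ a x} := isOpen_lt continuous_const (sm_continuous (h0 a))
    have hvs : ∀ (e : Chart n X) y, At e y → y ∈ {x | 0 < N₀ a x} →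
        ContDiffAt ℝ ∞ (fun z => vF (N₀ a) (N₁ a) (e.symm z)) (e y) := fun e y hy hyV =>
      smooth_vF (h0 a) (h1 a) (hl a).loc1.nonneg e y hy hyV
    have hηV : ∀ x ∈ tsupport η, 0 < N₀ a x := fun x hx => (hηs hx).2.1 a
    refine ⟨LC.cont_mul_lap hgH hVo hvs cη hηV, fun x => ?_, ?_⟩
    · by_cases hx : η x = 0
      · show 0 ≤ η x * _
        rw [hx, zero_mul]
      · have hxV := hηV x (hne x hx)
        refine mul_nonneg (hη0 x) ?_
        have hxc := at_chartAt (n := n) x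
        rw [LC.lapX_loc hgH hVo hvs hxc hxV]
        exact (Complex.le_def.1 (C2.trace_mul_nonneg (hg.posDef _ x hxc).inv.posSemidef
          (psd_vF (h0 a) (h1 a) (hl a) hxc hxV))).1
    · exact massF hχ hΛ hnef (h0 a) (h1 a) (hl a) hg hη (fun x => ⟨hη0 x, hη1 x⟩) hηV
  have hD0 : 0 ≤ q * mixX G Λ := by
    obtain ⟨-, k1, k2⟩ := hT G hG ⟨0, hκ⟩
    exact (J_nonneg hGH k1).trans k2
  -- the pointwise inequality
  have hpt : ∀ g : D.FormM n X, IsKahler g → ∀ c x, At c x → B x * (χ c (c x)).det.re ≤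
      K * (trX g G x ^ (n - κ) * (∏ a, T a g x) * trX g χ x ^ 0) * (g c (c x)).det.re := by
    intro g hg c x hx
    have hgH := hg.toIsHermitian
    by_cases hηx0 : η x = 0
    · have e1 : B x = 0 := by
        simp only [hBd]
        rw [hηx0, zero_pow hκ.ne']
      have e2 : ∏ a, T a g x = 0 := Finset.prod_eq_zero (Finset.mem_univ ⟨0, hκ⟩) (by
        simp only [hTd]
        rw [hηx0, zero_mul])
      rw [e1, e2]
      simp
    · obtain ⟨k1, -, k3⟩ := hηs (hne x hηx0)
      have k4 := (k3 G hG (hGβ e x k1)).2 g hg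
      have hge : 0 < (g e (e x)).det.re := hgH.det_re_pos k1
      have hgc : 0 < (g c (c x)).det.re := hgH.det_re_pos hx
      have e1 : (χ e (e x)).det.re = detR χ g x * (g e (e x)).det.re := by
        rw [detR_eq hχH hgH k1, div_mul_cancel₀ _ hge.ne']
      have e2 : (χ c (c x)).det.re = detR χ g x * (g c (c x)).det.re := by
        rw [detR_eq hχH hgH hx, div_mul_cancel₀ _ hgc.ne']
      rw [e1] at k4
      have k5 := le_of_mul_le_mul_right k4 hge
      have e3 : ∏ a, T a g x = B x * ∏ a, lapX g (vF (N₀ a) (N₁ a)) x := by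
        simp only [hTd, hBd]
        rw [Finset.prod_mul_distrib, Finset.prod_const, Finset.card_univ, Fintype.card_fin]
      rw [e2, e3, pow_zero, mul_one]
      calc B x * (detR χ g x * (g c (c x)).det.re)
          = B x * detR χ g x * (g c (c x)).det.re := by ring
        _ ≤ B x * (K * (trX g G x ^ (n - κ) * ∏ a, lapX g (vF (N₀ a) (N₁ a)) x)) *
              (g c (c x)).det.re := by
            have := hB0 x
            exact mul_le_mul_of_nonneg_right (mul_le_mul_of_nonneg_left k5 this) hgc.le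
        _ = _ := by ring
  have hkt := H716.NU.kt (d := n - κ) (k := κ) (e := 0) (by omega) hn0 hG hχ hB hB0 T hK hD0
    (fun U hU hg a => by
      obtain ⟨k1, k2, k3⟩ := hT _ hg a
      refine ⟨k1, k2, ?_⟩
      rwa [coh_left hGc hΛ hU] at k3) (fun U hU hg c x hx => hpt _ hg c x hx)
  rw [pow_zero, mul_one] at hkt
  -- the volume
  have hvol : H882.J χ B / K ≤ H882.J G (fun _ => 1) := by
    rw [← J_detR hGH hχH]
    have h2 : H882.J χ (fun x => K⁻¹ * B x) = H882.J χ B / K := by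
      rw [J_const_mul]
      field_simp
    rw [← h2]
    refine J_mono hχH (continuous_const.mul (sm_continuous hB))
      (continuous_const.mul (sm_continuous (smoothFn_detR hGH hχH))) fun x => ?_
    rw [one_mul]
    by_cases hηx0 : η x = 0
    · have e1 : B x = 0 := by
        simp only [hBd]
        rw [hηx0, zero_pow hκ.ne']
      rw [e1, mul_zero]
      exact (detR_pos hGH hχH x).le
    · obtain ⟨k1, -, k3⟩ := hηs (hne x hηx0)
      have k4 := (k3 G hG (hGβ e x k1)).1
      rw [detR_eq hGH hχH k1]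
      have hχe : 0 < (χ e (e x)).det.re := hχH.det_re_pos k1
      rw [le_div_iff₀ hχe]
      calc K⁻¹ * B x * (χ e (e x)).det.re ≤ K⁻¹ * 1 * (K * (G e (e x)).det.re) := by
            have := hB1 x
            have := hB0 x
            gcongr
        _ = (G e (e x)).det.re := by field_simp
  have hself := mix_self hGH
  have hWp : 0 < mixX G G := by
    rw [hself]
    exact mul_pos hnR (lt_of_lt_of_le (by positivity) hvol)
  refine ⟨hD0, ?_, ?_⟩
  · rw [hself]
    exact (min_le_left _ _).trans (mul_le_mul_of_nonneg_left hvol hnR.le)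
  · have e1 : H882.J G (fun _ => 1) = mixX G G / n := by
      rw [hself]
      field_simp
    rw [e1, div_pow] at hkt
    have e2 : mixX G G ^ (n - 1) = mixX G G ^ (n - κ) * mixX G G ^ (κ - 1) := by
      rw [← pow_add]
      congr 1
      omega
    have hp : 0 < mixX G G ^ (n - κ) := pow_pos hWp _
    have h2 : H882.J χ B / n ^ (n - 1) * mixX G G ^ (κ - 1) * mixX G G ^ (n - κ) ≤
        K * (q * mixX G Λ) ^ κ * mixX G G ^ (n - κ) := by
      calc H882.J χ B / n ^ (n - 1) * mixX G G ^ (κ - 1) * mixX G G ^ (n - κ)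
          = H882.J χ B * (mixX G G ^ (n - 1) / n ^ (n - 1)) := by rw [e2]; ring
        _ ≤ K * (mixX G G ^ (n - κ) * (q * mixX G Λ) ^ κ) := hkt
        _ = _ := by ring
    have h3 := le_of_mul_le_mul_right h2 hp
    refine (mul_le_mul_of_nonneg_right (min_le_right _ _) (pow_nonneg hWp.le _)).trans h3

end main

end Vale.Agent.P281.H167.NU
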