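import Vale.Agent.P281.H167.NU.FM

/-! P281, theorem NU, row N9 (the fibre side): `κ ≤ ν`. -/

open scoped Manifold ContDiff ComplexOrder Topology
open Complex Set Filter MeasureTheory

set_option linter.all false

noncomputable section

namespace Vale.Agent.P281.H167.NU

open Vale.Agent.P272.K Vale.Agent.P272.K.AMP Vale.Agent.P299.D Vale.Agent.P299 Vale.Agent.P299.H882
open Vale.Agent.P281.H167.SA Vale.Agent.P281.H167.GM Vale.Agent.P281.H713.KD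
open INT (IsDensity intX IsClosedForm)

variable {n : ℕ} {X : Type} [TopologicalSpace X] [T2Space X] [CompactSpace X] [ConnectedSpace X]
  [ChartedSpace (Cm n) X] [IsManifold 𝓘(ℂ, Cm n) ω X] {Λ χ θ β : D.FormM n X} {q : ℕ}

lemma mix_add {A B C : D.FormM n X} (hA : IsClosedForm A) (hB : IsClosedForm B)
    (hC : IsClosedForm C) (t : ℝ) : mixX A (addF B t C) = mixX A B + t * mixX A C :=
  H413.ML.mixX_comb hA hB hC fun e x hx => rfl

lemma tendsto_self {A : D.FormM n X} (hA : IsClosedForm A) (hχ : IsClosedForm χ) :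
    Tendsto (fun t : ℝ => mixX (addF A t χ) (addF A t χ)) (𝓝[>] 0) (𝓝 (mixX A A)) := by
  have h1 : ∀ t : ℝ, mixX (addF A t χ) (addF A t χ) = mixX (addF A t χ) A +
      t * mixX (addF A t χ) χ := fun t => mix_add (isClosed_addF hA hχ t) hA hχ t
  have h2 := Vale.Agent.P281.H227.GMC.epsPart n X A A χ hA hA hχ
  have h3 := Vale.Agent.P281.H227.GMC.epsPart n X A χ χ hA hχ hχ
  have h4 : Tendsto (fun t : ℝ => t) (𝓝[>] 0) (𝓝 0) := tendsto_id.mono_left nhdsWithin_le_nhds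
  have h5 := h2.add (h4.mul h3)
  rw [zero_mul, add_zero] at h5
  exact h5.congr fun t => (h1 t).symm

/-- **the volume of `β + s θ` grows at least as `s ^ κ`**, if there are `κ` independent quotients of
sections -/
theorem growth_ge (hχ : IsKahler χ) (hΛ : IsClosedForm Λ) (hnef : NefF Λ χ) (hθ : IsClosedForm θ)
    (hβ : IsClosedForm β) (hβ0 : ∀ e x, At e x → (β e (e x)).PosSemidef)
    (hθn : ∀ ε : ℝ, 0 < ε → ∃ ψ : X → ℝ, SmoothFn (n := n) ψ ∧ ∀ e x, At e x →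
      (θ e (e x) + hess ψ e (e x) + (ε : ℂ) • χ e (e x)).PosSemidef)
    (hgr : ∀ s : ℝ, 0 < s → mixX (addF β s θ) Λ = mixX (addF β s θ) θ)
    {κ : ℕ} (hκ : 0 < κ) {N₀ N₁ : Fin κ → X → ℝ} (h0 : ∀ a, SmoothFn (n := n) (N₀ a))
    (h1 : ∀ a, SmoothFn (n := n) (N₁ a)) (hl : ∀ a, LocPair Λ q (N₀ a) (N₁ a))
    {x₀ : X} (hx0 : ∀ a, 0 < N₀ a x₀) {e : Chart n X} (he : At e x₀)
    (hP : (β e (e x₀)).PosDef) {h : Fin κ → Cm n → ℂ} (hh : ∀ a, AnalyticAt ℂ (h a) (e x₀))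
    (hev : ∀ᶠ z in 𝓝 (e x₀), ∀ a, N₁ a (e.symm z) = N₀ a (e.symm z) * ‖h a z‖ ^ 2)
    (hi : LinearIndependent ℂ fun a => fderiv ℂ (h a) (e x₀)) :
    ∃ c : ℝ, 0 < c ∧ ∀ s : ℝ, 0 < s → c * s ^ κ ≤ mixX (addF β s θ) (addF β s θ) := by
  obtain ⟨K, c₀, hK, hc₀, hκn, hG⟩ := step_G hχ hΛ hnef hβ hβ0 hκ h0 h1 hl hx0 he hP hh hev hi
  have hχc := INT.IsKahler.isClosedForm hχ
  -- the inequalities for `t > 0`
  have key : ∀ s t : ℝ, 0 < s → 0 < t →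
      0 ≤ q * mixX (addF (addF β s θ) t χ) Λ ∧
      c₀ ≤ mixX (addF (addF β s θ) t χ) (addF (addF β s θ) t χ) ∧
      c₀ * mixX (addF (addF β s θ) t χ) (addF (addF β s θ) t χ) ^ (κ - 1) ≤
        K * (q * mixX (addF (addF β s θ) t χ) Λ) ^ κ ∧ 0 ≤ mixX (addF (addF β s θ) t χ) β := by
    intro s t hs ht
    obtain ⟨U, hU, hGk, hGβ⟩ := exists_G hχ hθ hβ hβ0 hθn hs ht
    have hA : IsClosedForm (addF (addF β s θ) t χ) := isClosed_addF (isClosed_addF hβ hθ s) hχc t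
    obtain ⟨k1, k2, k3⟩ := hG _ hGk hGβ
    have k4 := mix_nonneg hGk hβ hβ0
    have e1 : mixX (addH (addF (addF β s θ) t χ) U) (addH (addF (addF β s θ) t χ) U) =
        mixX (addF (addF β s θ) t χ) (addF (addF β s θ) t χ) :=
      Vale.Agent.P281.H227.GMC.cohPart n X _ _ hA hA U U hU hU
    rw [coh_left hA hΛ hU] at k1 k3
    rw [e1] at k2 k3
    rw [coh_left hA hβ hU] at k4
    exact ⟨k1, k2, k3, k4⟩
  -- `t → 0`
  have key2 : ∀ s : ℝ, 0 < s → 0 ≤ q * mixX (addF β s θ) Λ ∧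
      c₀ ≤ mixX (addF β s θ) (addF β s θ) ∧
      c₀ * mixX (addF β s θ) (addF β s θ) ^ (κ - 1) ≤ K * (q * mixX (addF β s θ) Λ) ^ κ ∧
      0 ≤ mixX (addF β s θ) β := by
    intro s hs
    have hA : IsClosedForm (addF β s θ) := isClosed_addF hβ hθ s
    have l1 := tendsto_self hA hχc
    have l2 := (Vale.Agent.P281.H227.GMC.epsPart n X _ Λ χ hA hΛ hχc).const_mul (q : ℝ)
    have l3 := Vale.Agent.P281.H227.GMC.epsPart n X _ β χ hA hβ hχc
    have hpos : ∀ᶠ t : ℝ in 𝓝[>] 0, 0 < t := self_mem_nhdsWithin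
    refine ⟨ge_of_tendsto l2 (hpos.mono fun t ht => (key s t hs ht).1),
      ge_of_tendsto l1 (hpos.mono fun t ht => (key s t hs ht).2.1),
      le_of_tendsto_of_tendsto ((l1.pow (κ - 1)).const_mul c₀) ((l2.pow κ).const_mul K)
        (hpos.mono fun t ht => (key s t hs ht).2.2.1),
      ge_of_tendsto l3 (hpos.mono fun t ht => (key s t hs ht).2.2.2)⟩
  have hq0 : (0 : ℝ) ≤ q := Nat.cast_nonneg q
  refine ⟨c₀ / (K * ((q : ℝ) + 1) ^ κ), by positivity, fun s hs => ?_⟩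
  obtain ⟨k1, k2, k3, k4⟩ := key2 s hs
  set W : ℝ := mixX (addF β s θ) (addF β s θ) with hW
  have hWp : 0 < W := hc₀.trans_le k2
  have hA : IsClosedForm (addF β s θ) := isClosed_addF hβ hθ s
  have e1 : W = mixX (addF β s θ) β + s * mixX (addF β s θ) θ := mix_add hA hβ hθ s
  have e2 : mixX (addF β s θ) Λ ≤ W / s := by
    rw [hgr s hs, le_div_iff₀ hs]
    linarith
  have e3 : q * mixX (addF β s θ) Λ ≤ ((q : ℝ) + 1) * (W / s) := by
    have h2 : 0 ≤ W / s := by positivity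
    calc q * mixX (addF β s θ) Λ ≤ q * (W / s) := mul_le_mul_of_nonneg_left e2 hq0
      _ ≤ ((q : ℝ) + 1) * (W / s) := mul_le_mul_of_nonneg_right (by linarith) h2
  have e4 : c₀ * W ^ (κ - 1) ≤ K * (((q : ℝ) + 1) * (W / s)) ^ κ :=
    k3.trans (mul_le_mul_of_nonneg_left (pow_le_pow_left₀ k1 e3 κ) hK.le)
  have e5 : W ^ κ = W ^ (κ - 1) * W := by
    rw [← pow_succ]
    congr 1
    omega
  have hs' : 0 < s ^ κ := pow_pos hs κ
  have hW' : 0 < W ^ (κ - 1) := pow_pos hWp _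
  have e6 : K * (((q : ℝ) + 1) * (W / s)) ^ κ =
      K * ((q : ℝ) + 1) ^ κ * (W ^ (κ - 1) * W) / s ^ κ := by
    rw [mul_pow, div_pow, e5]
    ring
  rw [e6, le_div_iff₀ hs'] at e4
  have e7 : c₀ * s ^ κ * W ^ (κ - 1) ≤ K * ((q : ℝ) + 1) ^ κ * W * W ^ (κ - 1) := by
    calc c₀ * s ^ κ * W ^ (κ - 1) = c₀ * W ^ (κ - 1) * s ^ κ := by ring
      _ ≤ K * ((q : ℝ) + 1) ^ κ * (W ^ (κ - 1) * W) := e4
      _ = _ := by ring
  have e8 := le_of_mul_le_mul_right e7 hW'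
  rw [div_mul_eq_mul_div, div_le_iff₀ (by positivity)]
  linarith

/-- **`κ ≤ ν`**, the exponent of the growth of the volume of `β + s θ` -/
theorem kappa_le (hχ : IsKahler χ) (hΛ : IsClosedForm Λ) (hnef : NefF Λ χ) (hθ : IsClosedForm θ)
    (hβ : IsClosedForm β) (hβ0 : ∀ e x, At e x → (β e (e x)).PosSemidef)
    (hθn : ∀ ε : ℝ, 0 < ε → ∃ ψ : X → ℝ, SmoothFn (n := n) ψ ∧ ∀ e x, At e x →
      (θ e (e x) + hess ψ e (e x) + (ε : ℂ) • χ e (e x)).PosSemidef)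
    (hgr : ∀ s : ℝ, 0 < s → mixX (addF β s θ) Λ = mixX (addF β s θ) θ)
    {ν : ℕ} {C₁ : ℝ} (hν : ∃ᶠ s : ℝ in atTop, mixX (addF β s θ) (addF β s θ) ≤ C₁ * s ^ ν)
    {κ : ℕ} {N₀ N₁ : Fin κ → X → ℝ} (h0 : ∀ a, SmoothFn (n := n) (N₀ a))
    (h1 : ∀ a, SmoothFn (n := n) (N₁ a)) (hl : ∀ a, LocPair Λ q (N₀ a) (N₁ a))
    {x₀ : X} (hx0 : ∀ a, 0 < N₀ a x₀) {e : Chart n X} (he : At e x₀)
    (hP : (β e (e x₀)).PosDef) {h : Fin κ → Cm n → ℂ} (hh : ∀ a, AnalyticAt ℂ (h a) (e x₀))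
    (hev : ∀ᶠ z in 𝓝 (e x₀), ∀ a, N₁ a (e.symm z) = N₀ a (e.symm z) * ‖h a z‖ ^ 2)
    (hi : LinearIndependent ℂ fun a => fderiv ℂ (h a) (e x₀)) : κ ≤ ν := by
  rcases Nat.eq_zero_or_pos κ with h2 | hκ
  · rw [h2]
    exact Nat.zero_le _
  obtain ⟨c, hc, hs⟩ := growth_ge hχ hΛ hnef hθ hβ hβ0 hθn hgr hκ h0 h1 hl hx0 he hP hh hev hi
  by_contra hcon
  push Not at hcon
  obtain ⟨s, hs1, hs2⟩ := (hν.and_eventually (eventually_gt_atTop (max 1 (C₁ / c)))).exists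
  have hs3 : 1 < s := (le_max_left _ _).trans_lt hs2
  have hsp : 0 < s := one_pos.trans hs3
  have h3 := (hs s hsp).trans hs1
  have h4 : s ^ ν * s ≤ s ^ κ := by
    rw [← pow_succ]
    exact pow_le_pow_right₀ hs3.le hcon
  have hsν : 0 < s ^ ν := pow_pos hsp ν
  have h5 : c * s * s ^ ν ≤ C₁ * s ^ ν := by
    calc c * s * s ^ ν = c * (s ^ ν * s) := by ring
      _ ≤ c * s ^ κ := mul_le_mul_of_nonneg_left h4 hc.le
      _ ≤ C₁ * s ^ ν := h3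
  have h6 := le_of_mul_le_mul_right h5 hsν
  have h7 : C₁ / c < s := (le_max_right _ _).trans_lt hs2
  rw [div_lt_iff₀ hc] at h7
  linarith

end Vale.Agent.P281.H167.NU
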