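import Vale.Agent.P281.H167.NU.FN
import Vale.Agent.P281.H368.NU.Nef
import Vale.Agent.P281.H575.U.Core

/-! P281, theorem NU, row N9 (the fibre side): sections of `m₁ (K + Δ)` and the growth of the volume of
`β + s θ`, if `K + Δ ≡ θ + N`, `θ` nef. -/

open scoped Manifold ContDiff Topology ComplexOrder Matrix
open Set Filter Vale.Agent.P281 Vale.Agent.P281.MF Vale.Agent.P272.K Vale.Agent.P299
open Vale.Agent.P285.TM Vale.Agent.P285.H591.TM
open Vale.Agent.P281.H949.SA Vale.Agent.P281.H716 Vale.Agent.P281.H716.IsSys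
open Vale.Agent.P272.K.AMP (hess)
open Vale.Agent.P272.K.INT (IsClosedForm)
open Vale.Agent.P281.H342.KD Vale.Agent.P281.H342.KG
open Vale.Agent.P281.H713.SA
open Vale.Agent.P281.H368.MFS

set_option linter.all false

noncomputable section

namespace Vale.Agent.P281.H167.NU

open Vale.Agent.P281.H167.GM (mixX addF isClosed_addF psd_real_smul)
open Vale.Agent.P281.H575.MFS

section core

variable {d : ℕ} {F : Type} [TopologicalSpace F] [T2Space F] [CompactSpace F] [ConnectedSpace F]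
  [ChartedSpace (Cm d) F] [IsManifold 𝓘(ℂ, Cm d) ω F] {κ' : Type}
  {eqn : κ' → F → (F → ℂ) → Prop} {T : Finset κ'}

/-- the class of `K + Δ` and `θ` have the same degree -/
theorem growth_sys {χ : D.FormM d F} (hχ : IsKahler χ) (h : IsSys d eqn T)
    {Δ : κ' → ℝ} (hTΔ : ∀ D, Δ D ≠ 0 → D ∈ T) {m : ℕ} (hm : 0 < m) {k : κ' → ℕ}
    (hk : ∀ D, (k D : ℝ) = m * Δ D) {V : F → ℝ} {β θ : D.FormM d F} (hβ : IsSemiPos β)
    (hθ : IsClosedForm θ)
    (hθn : ∀ ε : ℝ, 0 < ε → ∃ ψ : F → ℝ, SmoothFn (n := d) ψ ∧ ∀ e x, At e x →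
      (θ e (e x) + hess ψ e (e x) + (ε : ℂ) • χ e (e x)).PosSemidef)
    (hV : ∀ x, ∃ (r : ℕ) (g : Fin r → F → ℂ) (a : Fin r → ℕ), VolLoc d m eqn k V 0 θ x g a ∧
      ∀ᶠ z in 𝓝 x, ∀ i, g i z = 0 → ConAt d (g i) β θ z)
    {m₁ : ℕ} (hm₁ : 0 < m₁) {k₁ : κ' → ℕ} (hk₁ : ∀ D, (k₁ D : ℝ) = m₁ * Δ D) {κ : ℕ}
    (hκ : 0 < κ) {s : Fin (κ + 1) → F → ℂ} (hs : ∀ b, J.IsSection (Cm d) eqn m₁ k₁ (s b)) {x : F}
    (hxo : x ∈ off eqn T) (h0 : s 0 x ≠ 0)
    (hind : LinearIndependent ℂ fun b : Fin κ => dV (Cm d) (fun w => s b.succ w / s 0 w) x)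
    (hP : (β (chartAt (Cm d) x) (chartAt (Cm d) x x)).PosDef) :
    ∃ c : ℝ, 0 < c ∧ ∀ t : ℝ, 0 < t → c * t ^ κ ≤ mixX (addF β t θ) (addF β t θ) := by
  classical
  haveI : Nonempty F := ⟨x⟩
  have hsupp : ∀ {m : ℕ} {k : κ' → ℕ}, (∀ D, (k D : ℝ) = m * Δ D) → ∀ D, k D ≠ 0 → D ∈ T := by
    intro m k hk D hD
    refine hTΔ D fun h0 => hD ?_
    have h1 := hk D
    rw [h0, mul_zero] at h1
    exact_mod_cast h1
  obtain ⟨M, Dv, hinj, hDvT⟩ := H167.KG.exists_enum T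
  have hDv : ∀ i, Dv i ∈ T := fun i => (hDvT _).2 ⟨i, rfl⟩
  have hprod : ∀ f : κ' → ℂ, ∏ i, f (Dv i) = ∏ D ∈ T, f D := by
    intro f
    have h1 : T = Finset.univ.image Dv := by
      ext D
      rw [hDvT D, Finset.mem_image]
      exact ⟨fun ⟨i, hi⟩ => ⟨i, Finset.mem_univ i, hi⟩, fun ⟨i, _, hi⟩ => ⟨i, hi⟩⟩
    rw [h1, Finset.prod_image fun i _ j _ hij => hinj hij]
  choose ψ hψ hle using fun i => H342.KD.exists_wt_le h (hDv i)
  have hφ := AMP.Main.isCanonical_logdet hχ.toIsHermitian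
  set φ : Chart d F → Cm d → ℝ := fun e z => Real.log (χ e z).det.re with hφd
  set R : Fin M → D.FormM d F := fun i => cv (OD h (Dv i) (hDv i)) (ψ i) with hRd
  have hβc := hβ.isClosedForm
  have hA : ∀ s : ℝ, IsClosedForm (addF β s θ) := fun s => isClosed_addF hβc hθ s
  -- the class
  set cl : D.FormM d F := H713.KD.clsK φ (fun i => Δ (Dv i)) R with hcld
  have hcl : IsClosedForm cl := closed_cls (fun i => isClosedForm_cv (hψ i)) hφ
  set Λ : D.FormM d F := fun e z => cl e z - (θ e z - (0 : D.FormM d F) e z) with hΛdef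
  have hΛ : IsClosedForm Λ := by
    have h1 := hcl.add (hθ.smul (-1))
    have h2 : (fun (e : Chart d F) z => cl e z + (-1 : ℂ) • θ e z) = Λ := by
      funext e z
      show cl e z + (-1 : ℂ) • θ e z = cl e z - (θ e z - 0)
      rw [neg_one_smul, sub_zero, sub_eq_add_neg]
    rw [← h2]
    exact h1
  set ρ : F → ℝ := H342.MFS.rhoW h Dv ψ φ k m V with hρdef
  have hloc : ∀ x, ∃ (r : ℕ) (g : Fin r → F → ℂ) (a : Fin r → ℕ) (w : F → ℂ),
      H167.KG.LocAt m Λ ρ x g a (fun (_ : Fin 1) => w) ∧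
      ∀ᶠ z in 𝓝 x, ∀ l, g l z = 0 → ConAt d (g l) β θ z := by
    intro x
    obtain ⟨r, g, a, hVx, hev⟩ := hV x
    obtain ⟨w, hL⟩ := locAt_vol (dl := fun i => Δ (Dv i)) h hprod hDv hψ hφ (hsupp hk)
      (fun l => hk (Dv l)) hVx
    exact ⟨r, g, a, w, hL, hev⟩
  have hex : ∀ x, ∃ (r N : ℕ) (g : Fin r → F → ℂ) (a : Fin r → ℕ) (H : Fin N → F → ℂ),
      H167.KG.LocAt m Λ ρ x g a H := fun x => by
    obtain ⟨r, g, a, w, hL, -⟩ := hloc x
    exact ⟨r, 1, g, a, _, hL⟩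
  obtain ⟨C, -, -, hρs, hρ0, -, -, -, -, -⟩ := H342.KG.formPartG d F χ hχ m hm Λ hΛ ρ hex
  have hgr : ∀ t : ℝ, 0 < t → mixX (addF β t θ) cl = mixX (addF β t θ) θ := by
    intro t ht
    have hV : H368.NU.VData m Λ ρ (addF β t θ) := by
      refine ⟨hm, hΛ, hρs, hρ0, hA t, fun x => ?_⟩
      obtain ⟨r, g, a, w, hL, hev⟩ := hloc x
      refine ⟨r, g, a, w, hL, ?_⟩
      filter_upwards [hev] with y hy i hgi
      obtain ⟨v, hv0, hv1, hv2, hv3⟩ := hy i hgi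
      refine ⟨v, hv0, hv1, fun j => ?_⟩
      have h1 := hv2 j
      have h2 := hv3 j
      show ∑ i, v i * (β (chartAt (Cm d) y) (chartAt (Cm d) y y) +
        (t : ℂ) • θ (chartAt (Cm d) y) (chartAt (Cm d) y y)) i j = 0
      have h3 : ∀ i, v i * (β (chartAt (Cm d) y) (chartAt (Cm d) y y) +
        (t : ℂ) • θ (chartAt (Cm d) y) (chartAt (Cm d) y y)) i j =
          v i * β (chartAt (Cm d) y) (chartAt (Cm d) y y) i j +
          (t : ℂ) * (v i * θ (chartAt (Cm d) y) (chartAt (Cm d) y y) i j) := by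
        intro i
        rw [Matrix.add_apply, Matrix.smul_apply, smul_eq_mul]
        ring
      rw [Finset.sum_congr rfl fun i _ => h3 i, Finset.sum_add_distrib, ← Finset.mul_sum, h1, h2,
        mul_zero, add_zero]
    have h0 := hV.vanishing hχ
    have h3 := H575.MFS.mixX_add (Λ' := cl) (hA t) hχ hΛ hθ (fun e x hx => by
        show cl e (e x) = (cl e (e x) - (θ e (e x) - 0)) + θ e (e x)
        abel)
    rw [h3, h0, zero_add]
  -- the sections
  have hk₁T : ∀ D, k₁ D ≠ 0 → D ∈ T := hsupp hk₁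
  have he : At (chartAt (Cm d) x) x := ⟨chart_mem_atlas _ _, mem_chart_source _ _⟩
  set e : Chart d F := chartAt (Cm d) x with hed
  obtain ⟨hnull, C', hC', hcurv⟩ := H342.MFS.nrm_curv (dl := fun i => Δ (Dv i)) h hprod hDv hψ hφ
    hk₁T (fun i => hk₁ (Dv i)) hm₁ (hs 0) ⟨x, hxo, h0⟩ hχ
  have hsm : ∀ b, SmoothFn (n := d) (nrm h Dv ψ φ k₁ m₁ (s b)) := fun b =>
    nrm_smooth h hprod hDv hψ hφ hk₁T (hs b)
  have hnef : NefF cl χ := by
    intro ε₀ hε₀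
    refine ⟨m₁, nrm h Dv ψ φ k₁ m₁ (s 0), C', hm₁, hsm 0, fun x => nrm_nonneg h x, hnull, hC',
      fun δ hδ e x hx => ?_⟩
    have h1 := (hcurv δ hδ e x hx).add (psd_real_smul ((hχ.posDef e x hx).posSemidef) hε₀.le)
    rw [Complex.ofReal_add, add_smul, ← add_assoc]
    exact h1
  have hq : ∀ b, HolV (Cm d) (fun w => s b w / s 0 w) x := fun b =>
    h.holV_ratio hk₁T (hs 0) (hs b) hxo h0
  have hev0 : ∀ᶠ w in 𝓝 x, s 0 w ≠ 0 := h.ev_ne hk₁T (hs 0) hxo h0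
  refine growth_ge hχ hcl hnef hθ hβc hβ.posSemidef hθn hgr hκ (q := m₁)
    (N₀ := fun _ => nrm h Dv ψ φ k₁ m₁ (s 0)) (N₁ := fun b : Fin κ => nrm h Dv ψ φ k₁ m₁ (s b.succ))
    (fun _ => hsm 0) (fun b => hsm b.succ) (fun b => nrm_loc h hprod hDv hψ hφ hk₁T
      (fun i => hk₁ (Dv i)) (hs 0) (hs b.succ)) (x₀ := x)
    (fun _ => (nrm_pos_iff h hk₁T (hs 0) hxo).2 h0) he hP
    (h := fun b z => s b.succ (e.symm z) / s 0 (e.symm z))
    (fun b => (holV_chart he (hq b.succ)).analyticAt) ?_ ?_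
  · have h4 : Tendsto e.symm (𝓝 (e x)) (𝓝 x) := by
      have := e.continuousAt_symm (e.map_source he.2)
      rwa [ContinuousAt, he.left_inv] at this
    filter_upwards [h4.eventually hev0, h4.eventually (h.isOpen_off.mem_nhds hxo)] with z k1 k2 b
    rw [nrm_off h hk₁T (hs 0) k2, nrm_off h hk₁T (hs b.succ) k2, norm_div, div_pow]
    have hn : ‖s 0 (e.symm z)‖ ^ 2 ≠ 0 := pow_ne_zero 2 (norm_ne_zero_iff.2 k1)
    field_simp
  · have h5 : (fun b : Fin κ => fderiv ℂ (fun z => s b.succ (e.symm z) / s 0 (e.symm z)) (e x)) =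
        fun b : Fin κ => dV (Cm d) (fun w => s b.succ w / s 0 w) x := by
      funext b
      refine ContinuousLinearMap.ext fun v => ?_
      rw [dV_eq_fderiv he (hq b.succ)]
      show _ = fderiv ℂ (fun z => s b.succ (e.symm z) / s 0 (e.symm z)) (e x)
        (De (chartAt (Cm d) x) x v)
      rw [H368.GM.De_self]
    rw [h5]
    exact hind

end core

end Vale.Agent.P281.H167.NU
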