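import Vale.Agent.P281.H167.NU.Fib
import Vale.Agent.P272.Sz.Det
import Vale.Agent.P281.H575.U.Kod
import Vale.Agent.P281.H342.NU.Stmt

/-! P281, theorem NU, row N9 (the fibre side): `κ(F, K_F + Δ|_F) + κ(f | Δ) ≤ ν`. -/

open scoped Manifold ContDiff Topology ComplexOrder Matrix
open Set Filter Vale.Agent.P281 Vale.Agent.P281.MF Vale.Agent.P272.K Vale.Agent.P299
open Vale.Agent.P285.TM Vale.Agent.P285.H591.TM
open Vale.Agent.P281.H949.SA Vale.Agent.P281.H716 Vale.Agent.P281.H716.IsSys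
open Vale.Agent.P272.K.AMP (hess)
open Vale.Agent.P272.K.INT (IsClosedForm intX)
open Vale.Agent.P281.H342.KD Vale.Agent.P281.H342.KG
open Vale.Agent.P281.H713 Vale.Agent.P281.H713.SA
open Vale.Agent.P281.H776.KD (isClosedForm_pullM psd_pull adjF mem_iffE)
open Vale.Agent.P281.H368.MFS

set_option linter.all false

noncomputable section

namespace Vale.Agent.P281.H167.NU

open Vale.Agent.P281.H167.GM (mixX mixD addF isClosed_addF psd_real_smul)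
open Vale.Agent.P281.H575.MFS Vale.Agent.P281.H575.U

section low

variable {n : ℕ} {X : Type} [TopologicalSpace X] [T2Space X] [CompactSpace X] [ConnectedSpace X]
  [ChartedSpace (Cm n) X] [IsManifold 𝓘(ℂ, Cm n) ω X] {χ θ β : D.FormM n X}

lemma mix_det (A : D.FormM n X) :
    mixX A A = n * intX fun (e : Chart n X) z => (A e z).det.re := by
  unfold mixX
  rw [← INT.intX_const_mul]
  congr 1
  funext e z
  unfold mixD
  rw [Matrix.adjugate_mul, Matrix.trace_smul, Matrix.trace_one, Fintype.card_fin, smul_eq_mul,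
    mul_comm, Complex.mul_re]
  simp

lemma det_mono' {A B : Matrix (Fin n) (Fin n) ℂ} (hA : A.PosSemidef) (hAB : (B - A).PosSemidef) :
    A.det.re ≤ B.det.re := by
  by_cases h : IsUnit A
  · exact (Complex.le_def.1 (Vale.Agent.P272.Sz.det_le_det ((hA.posDef_iff_isUnit).2 h) hAB)).1
  · have h1 : A.det = 0 := by
      by_contra h2
      exact h ((Matrix.isUnit_iff_isUnit_det _).2 (isUnit_iff_ne_zero.2 h2))
    have h2 : B.PosSemidef := by
      have h3 := hA.add hAB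
      rwa [add_sub_cancel] at h3
    rw [h1]
    exact (Complex.le_def.1 h2.det_nonneg).1

/-- the volume of `β + s θ` is bounded from below -/
theorem vol_low (hχ : IsKahler χ) (hθ : IsClosedForm θ) (hβ : IsSemiPos β)
    (hθn : ∀ ε : ℝ, 0 < ε → ∃ ψ : X → ℝ, SmoothFn (n := n) ψ ∧ ∀ e x, At e x →
      (θ e (e x) + hess ψ e (e x) + (ε : ℂ) • χ e (e x)).PosSemidef) {x : X}
    (hP : ∀ e, At e x → (β e (e x)).PosDef) :
    ∃ c : ℝ, 0 < c ∧ ∀ s : ℝ, 0 < s →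
      c ≤ intX fun (e : Chart n X) z => (addF β s θ e z).det.re := by
  have hβc := hβ.isClosedForm
  have hχc := INT.IsKahler.isClosedForm hχ
  have hdens : ∀ {A : D.FormM n X}, IsClosedForm A →
      INT.IsDensity fun (e : Chart n X) z => (A e z).det.re := fun hA => hA.isDensity
  refine ⟨intX fun (e : Chart n X) z => (β e z).det.re, ?_, fun s hs => ?_⟩
  · exact H954.intX_pos_of_pos (hdens hβc) (fun e x hx =>
      (Complex.le_def.1 (hβ.posSemidef e x hx).det_nonneg).1) (x := x)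
      fun e he => (Complex.lt_def.1 (hP e he).det_pos).1
  · rcases Nat.eq_zero_or_pos n with h0 | h0
    · subst h0
      exact le_of_eq (INT.intX_congr fun e x hx => by rw [Matrix.det_isEmpty, Matrix.det_isEmpty])
    · have hA : IsClosedForm (addF β s θ) := isClosed_addF hβc hθ s
      have key : ∀ t : ℝ, 0 < t → n * intX (fun (e : Chart n X) z => (β e z).det.re) ≤
          mixX (addF (addF β s θ) t χ) (addF (addF β s θ) t χ) := by
        intro t ht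
        obtain ⟨U, hU, hGk, hGβ⟩ := exists_G hχ hθ hβc hβ.posSemidef hθn hs ht
        have hA' : IsClosedForm (addF (addF β s θ) t χ) := isClosed_addF hA hχc t
        have e1 := Vale.Agent.P281.H227.GMC.cohPart n X _ _ hA' hA' U U hU hU
        rw [← e1, mix_det]
        refine mul_le_mul_of_nonneg_left ?_ (Nat.cast_nonneg n)
        exact INT.intX_mono (hdens hβc) (hdens (INT.IsKahler.isClosedForm hGk)) fun e x hx =>
          det_mono' (hβ.posSemidef e x hx) (hGβ e x hx)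
      have hev : ∀ᶠ t : ℝ in 𝓝[>] 0, n * intX (fun (e : Chart n X) z => (β e z).det.re) ≤
          mixX (addF (addF β s θ) t χ) (addF (addF β s θ) t χ) := by
        filter_upwards [self_mem_nhdsWithin] with t ht using key t ht
      have h1 := ge_of_tendsto (tendsto_self hA hχc) hev
      rw [mix_det] at h1
      exact le_of_mul_le_mul_left h1 (by exact_mod_cast h0)

end low

section fib

lemma exists_of_le_kod {d : ℕ} {F : Type} [TopologicalSpace F] [ChartedSpace (Cm d) F] {κ : Type}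
    {eqn : κ → F → (F → ℂ) → Prop} {Δ : κ → ℝ} {a : ℕ}
    (ha : ((a : ℕ∞) : WithBot ℕ∞) ≤ J.kod (Cm d) eqn Δ) :
    ∃ (b m₁ : ℕ) (k₁ : κ → ℕ) (s : ℕ → F → ℂ) (z : F), a ≤ b ∧ 0 < m₁ ∧
      (∀ D, (k₁ D : ℝ) = m₁ * Δ D) ∧ (∀ b, J.IsSection (Cm d) eqn m₁ k₁ (s b)) ∧
      (∀ D, k₁ D ≠ 0 → ∃ g, eqn D z g ∧ g z ≠ 0) ∧ s 0 z ≠ 0 ∧
      Function.Surjective fun (ξ : Cm d) (c : Fin b) =>
        J.dif (Cm d) (fun w => s (c + 1) w / s 0 w) z ξ := by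
  by_contra hcon
  push Not at hcon
  rcases Nat.eq_zero_or_pos a with h0 | h0
  · have h1 : J.kod (Cm d) eqn Δ ≤ ⊥ := by
      refine iSup₂_le fun b hb => ?_
      obtain ⟨m₁, k₁, s, z, h1, h2, h3, h4, h5, h6⟩ := hb
      exact absurd h6 (hcon b m₁ k₁ s z (by omega) h1 h2 h3 h4 h5)
    exact absurd (ha.trans h1) (by simp)
  · have h1 : J.kod (Cm d) eqn Δ ≤ (((a - 1 : ℕ) : ℕ∞) : WithBot ℕ∞) := by
      refine iSup₂_le fun b hb => ?_
      obtain ⟨m₁, k₁, s, z, h1, h2, h3, h4, h5, h6⟩ := hb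
      have h7 : ¬ a ≤ b := fun hab => hcon b m₁ k₁ s z hab h1 h2 h3 h4 h5 h6
      have h8 : b ≤ a - 1 := by omega
      exact_mod_cast h8
    have h2 := ha.trans h1
    have h3 : a ≤ a - 1 := by exact_mod_cast h2
    omega

/-- **the growth of the volume on a compact manifold `F`** -/
theorem growth_kod {d : ℕ} {F : Type} [TopologicalSpace F] [T2Space F] [CompactSpace F]
    [ConnectedSpace F] [ChartedSpace (Cm d) F] [IsManifold 𝓘(ℂ, Cm d) ω F] {κ' : Type}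
    {eqn : κ' → F → (F → ℂ) → Prop} {T : Finset κ'} {χ : D.FormM d F} (hχ : IsKahler χ)
    (h : IsSys d eqn T) {Δ : κ' → ℝ} (hTΔ : ∀ D, D ∈ T ↔ Δ D ≠ 0)
    (hoff : ∀ x : F, (∀ D ∈ T, ∃ g, eqn D x g ∧ g x ≠ 0) → x ∈ off eqn T)
    {m : ℕ} (hm : 0 < m) {k : κ' → ℕ}
    (hk : ∀ D, (k D : ℝ) = m * Δ D) {V : F → ℝ} {β θ : D.FormM d F} (hβ : IsSemiPos β)
    (hθ : IsClosedForm θ)
    (hθn : ∀ ε : ℝ, 0 < ε → ∃ ψ : F → ℝ, SmoothFn (n := d) ψ ∧ ∀ e x, At e x →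
      (θ e (e x) + hess ψ e (e x) + (ε : ℂ) • χ e (e x)).PosSemidef)
    (hd : Dense {t | (β (chartAt (Cm d) t) (chartAt (Cm d) t t)).PosDef})
    (hV : ∀ x, ∃ (r : ℕ) (g : Fin r → F → ℂ) (a : Fin r → ℕ), VolLoc d m eqn k V 0 θ x g a ∧
      ∀ᶠ z in 𝓝 x, ∀ i, g i z = 0 → ConAt d (g i) β θ z)
    {a : ℕ} (ha : ((a : ℕ∞) : WithBot ℕ∞) ≤ J.kod (Cm d) eqn Δ) :
    ∃ c : ℝ, 0 < c ∧ ∀ s : ℝ, 0 < s → c * s ^ a ≤
      intX fun (e : Chart d F) z => (addF β s θ e z).det.re := by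
  classical
  have hat : ∀ x : F, At (chartAt (Cm d) x) x := fun x =>
    ⟨chart_mem_atlas _ _, mem_chart_source _ _⟩
  have hposc : ∀ (e e' : Chart d F) (x : F), At e x → At e' x → (β e' (e' x)).PosDef →
      (β e (e x)).PosDef := by
    intro e e' x h h' hP
    refine (hβ.posSemidef e x h).posDef_iff_isUnit.2 ?_
    rw [Matrix.isUnit_iff_isUnit_det, isUnit_iff_ne_zero, hβ.change e e' x h h', Matrix.det_mul,
      Matrix.det_mul, Matrix.det_transpose]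
    have h1 : (jacM e e' x).det ≠ 0 := jacM_det_ne_zero h h'
    have h2 : ((jacM e e' x).map (starRingEnd ℂ)).det = (starRingEnd ℂ) (jacM e e' x).det := by
      rw [RingHom.map_det]
      rfl
    rw [h2]
    have h3 : (starRingEnd ℂ) (jacM e e' x).det ≠ 0 := by simpa using h1
    exact mul_ne_zero (mul_ne_zero h1 hP.det_pos.ne') h3
  obtain ⟨y₀, hy₀⟩ := hd.nonempty
  have ho₂ : IsOpen {x : F | (β (chartAt (Cm d) x) (chartAt (Cm d) x x)).PosDef} := by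
    rw [isOpen_iff_mem_nhds]
    intro x hP
    filter_upwards [H167.GM.ev_posDef hβ.isClosedForm hβ.posSemidef (hat x) hP] with y hy
    exact hposc _ _ y (hat y) hy.1 hy.2
  rcases Nat.eq_zero_or_pos a with ha0 | ha0
  · obtain ⟨c, hc, hcs⟩ := vol_low hχ hθ hβ hθn (x := y₀) fun e he => hposc _ _ _ he (hat _) hy₀
    exact ⟨c, hc, fun s hs => by rw [ha0, pow_zero, mul_one]; exact hcs s hs⟩
  obtain ⟨b, m₁, k₁, s, z, hab, hm₁, hk₁, hs, hz, h0, hsurj⟩ := exists_of_le_kod ha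
  have hm₁0 : (m₁ : ℝ) ≠ 0 := by exact_mod_cast hm₁.ne'
  have hk₁T : ∀ D, k₁ D ≠ 0 → D ∈ T := by
    intro D hD
    refine (hTΔ D).2 fun h1 => hD ?_
    have h2 := hk₁ D
    rw [h1, mul_zero] at h2
    exact_mod_cast h2
  have hTk : ∀ D ∈ T, k₁ D ≠ 0 := by
    intro D hD h1
    have h2 := hk₁ D
    rw [h1, Nat.cast_zero] at h2
    exact mul_ne_zero hm₁0 ((hTΔ D).1 hD) h2.symm
  set s' : Fin (a + 1) → F → ℂ := fun b => s b with hs'd
  have hs' : ∀ b, J.IsSection (Cm d) eqn m₁ k₁ (s' b) := fun b => hs b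
  have hzoff : z ∈ off eqn T := hoff z fun D hD => hz D (hTk D hD)
  have hind : Ind d s' z := ⟨h0, by
    have h1 := JB.linearIndependent_of_surjective hsurj
    exact h1.comp (Fin.castLE hab) (Fin.castLE_injective hab)⟩
  obtain ⟨hd', -⟩ := h.dense_ind hk₁T hs' ⟨z, hzoff, hind⟩
  obtain ⟨x, hxP, hxoff, hx0, hxi⟩ := hd'.inter_open_nonempty _ ho₂ ⟨y₀, hy₀⟩
  obtain ⟨c, hc, hcs⟩ := growth_sys hχ h (fun D hD => (hTΔ D).2 hD) hm hk hβ hθ hθn hV hm₁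
    hk₁ ha0 hs' hxoff hx0 hxi hxP
  have hd0 : 0 < d := by
    rcases Nat.eq_zero_or_pos d with h1 | h1
    · have h2 := hcs 1 one_pos
      rw [mix_det, one_pow, mul_one] at h2
      have h3 : (d : ℝ) = 0 := by rw [h1]; exact Nat.cast_zero
      rw [h3, zero_mul] at h2
      exact absurd h2 (not_le.2 hc)
    · exact h1
  have hd1 : (0 : ℝ) < d := by exact_mod_cast hd0
  refine ⟨c / d, by positivity, fun t ht => ?_⟩
  have h1 := hcs t ht
  rw [mix_det] at h1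
  rw [div_mul_eq_mul_div, div_le_iff₀ hd1, mul_comm _ (d : ℝ)]
  exact h1

theorem closed_pull {n d : ℕ} {X F : Type} [TopologicalSpace X] [ChartedSpace (Cm n) X]
    [IsManifold 𝓘(ℂ, Cm n) ω X] [TopologicalSpace F] [ChartedSpace (Cm d) F]
    [IsManifold 𝓘(ℂ, Cm d) ω F] {ι : F → X} (hι : ContMDiff 𝓘(ℂ, Cm d) 𝓘(ℂ, Cm n) ω ι)
    {θ : D.FormM n X} (hθ : IsClosedForm θ) : IsClosedForm (pull ι θ : D.FormM d F) :=
  isClosedForm_pullM hθ hι

theorem kahler_pull {n d : ℕ} {X F : Type} [TopologicalSpace X] [ChartedSpace (Cm n) X]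
    [IsManifold 𝓘(ℂ, Cm n) ω X] [TopologicalSpace F] [ChartedSpace (Cm d) F]
    [IsManifold 𝓘(ℂ, Cm d) ω F] {ι : F → X} (hι : ContMDiff 𝓘(ℂ, Cm d) 𝓘(ℂ, Cm n) ω ι)
    (himm : ∀ t, Function.Injective (mfderiv 𝓘(ℂ, Cm d) 𝓘(ℂ, Cm n) ι t))
    {χ : D.FormM n X} (hχ : IsKahler χ) : IsKahler (pull ι χ : D.FormM d F) :=
  H956.isKahler_pullM hχ hι (H167.SA.immersive_of_mfderiv hι himm)

/-- the pull-back of a nef form -/
theorem nef_pull {n d : ℕ} {X F : Type} [TopologicalSpace X] [ChartedSpace (Cm n) X]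
    [IsManifold 𝓘(ℂ, Cm n) ω X] [TopologicalSpace F] [ChartedSpace (Cm d) F]
    [IsManifold 𝓘(ℂ, Cm d) ω F] {ι : F → X} (hι : ContMDiff 𝓘(ℂ, Cm d) 𝓘(ℂ, Cm n) ω ι)
    {χ θ : D.FormM n X} (hθ : H342.NU.IsNef χ θ) {ε : ℝ} (hε : 0 < ε) :
    ∃ ψ : F → ℝ, SmoothFn (n := d) ψ ∧ ∀ e x, At e x →
      ((pull ι θ : D.FormM d F) e (e x) + hess ψ e (e x) +
        (ε : ℂ) • (pull ι χ : D.FormM d F) e (e x)).PosSemidef := by
  obtain ⟨ψ, hψ, hψp⟩ := hθ.2.2 ε hε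
  refine ⟨fun t => ψ (ι t), fun e t ht => ?_, fun e t ht => ?_⟩
  · exact smooth_ι' hι (by exact_mod_cast le_top) ht fun E hE => hψ E _ hE
  · have hE : At (chartAt (Cm n) (ι t)) (ι t) := ⟨chart_mem_atlas _ _, mem_chart_source _ _⟩
    have h1 : hess (fun t => ψ (ι t)) e (e t) = _ := cHess_ι' hι ht fun E hE =>
      (hψ E _ hE).of_le (by norm_cast)
    have h2 := psd_pull (J := H368.MFS.jacI ι e (chartAt (Cm n) (ι t)) t) (hψp _ _ hE)
    rw [h1]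
    have h3 : ∀ A : D.FormM n X, (pull ι A : D.FormM d F) e (e t) =
        (H368.MFS.jacI ι e (chartAt (Cm n) (ι t)) t).transpose *
          A (chartAt (Cm n) (ι t)) (chartAt (Cm n) (ι t) (ι t)) *
          (H368.MFS.jacI ι e (chartAt (Cm n) (ι t)) t).map (starRingEnd ℂ) := by
      intro A
      unfold H368.MFS.pull
      rw [ht.left_inv]
    rw [h3, h3]
    rw [Matrix.mul_add, Matrix.mul_add, Matrix.add_mul, Matrix.add_mul, Matrix.mul_smul,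
      Matrix.smul_mul] at h2
    exact h2

/-- **the fibre side**: if `κ(F, K_F + Δ|_F) ≥ a`, then the volume of `β + s θ` on `F` grows at least
as `s ^ a` -/
theorem fib_growth {n p d : ℕ} (hnpd : n = p + d) {X Z Y F : Type}
    [TopologicalSpace X] [T2Space X] [CompactSpace X] [ConnectedSpace X]
    [ChartedSpace (Cm n) X] [IsManifold 𝓘(ℂ, Cm n) ω X]
    [TopologicalSpace Z] [ChartedSpace (Cm n) Z] [IsManifold 𝓘(ℂ, Cm n) ω Z]
    [TopologicalSpace Y] [T2Space Y] [ConnectedSpace Y]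
    [ChartedSpace (Cm p) Y] [IsManifold 𝓘(ℂ, Cm p) ω Y]
    [TopologicalSpace F] [T2Space F] [CompactSpace F] [ConnectedSpace F]
    [ChartedSpace (Cm d) F] [IsManifold 𝓘(ℂ, Cm d) ω F]
    {χ : D.FormM n X} (hχ : IsKahler χ) {Δ : Set X → ℝ} (hΔ : J.IsSNC (Cm n) Δ)
    {m : ℕ} (hm : 0 < m) {k : Set X → ℕ} (hk : ∀ D, (k D : ℝ) = m * Δ D)
    {θ β : D.FormM n X} (hθ : H342.NU.IsNef χ θ) (hβ : IsSemiPos β) {W : X → ℝ}
    {j : Z → X} (hj : J.IsBigOpen (Cm n) j) {f : Z → Y} (hf : ContMDiff 𝓘(ℂ, Cm n) 𝓘(ℂ, Cm p) ω f)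
    {i : F → Z} (hi : IsSmoothFibre (Cm n) (Cm p) (Cm d) f i)
    (hne : ∀ D, Δ D ≠ 0 → ∃ t, j (i t) ∉ D)
    (hd : Dense {t | (pull (fun t => j (i t)) β (chartAt (Cm d) t) (chartAt (Cm d) t t)).PosDef})
    (hV : ∀ t : F, ∃ (r : ℕ) (g : Fin r → X → ℂ) (a : Fin r → ℕ),
      VolLoc n m (fun (D : Set X) z g => J.IsLocalEq (Cm n) D g z) k W 0 θ (j (i t)) g a ∧
      (∀ l, J.dif (Cm d) (fun t => g l (j (i t))) t ≠ 0) ∧
      ∀ᶠ s in 𝓝 t, ∀ l, g l (j (i s)) = 0 →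
        ConAt d (fun t => g l (j (i t))) (pull (fun t => j (i t)) β)
          (pull (fun t => j (i t)) θ) s)
    {a : ℕ} (ha : ((a : ℕ∞) : WithBot ℕ∞) ≤ J.kod (Cm d) (fun (D : Set X) t g =>
      ∃ e, J.IsLocalEq (Cm n) D e (j (i t)) ∧ ∀ᶠ t' in 𝓝 t, g t' = e (j (i t'))) Δ) :
    ∃ c : ℝ, 0 < c ∧ ∀ s : ℝ, 0 < s → c * s ^ a ≤
      intX fun (e : Chart d F) z => (addF (pull (fun t => j (i t)) β) s
        (pull (fun t => j (i t)) θ) e z).det.re := by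
  classical
  set T : Finset (Set X) := hΔ.1.toFinset with hTdef
  have hTΔ : ∀ D, D ∈ T ↔ Δ D ≠ 0 := fun D => Set.Finite.mem_toFinset _
  have hTex : ∀ D ∈ T, ∀ x, ∃ g, J.IsLocalEq (Cm n) D g x := fun D hD =>
    (hΔ.2.1 D ((hTΔ D).1 hD)).2.1
  have hjh : ∀ z, HolM (Cm n) (Cm n) j z := fun z => hj.1 z
  have hih : ∀ z, HolM (Cm d) (Cm n) i z := fun z => hi.hol z
  have hι : ContMDiff 𝓘(ℂ, Cm d) 𝓘(ℂ, Cm n) ω (fun t => j (i t)) := fun t =>
    ContMDiffAt.comp t (hjh (i t)) (hih t)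
  have hsF : IsSys d (H776.KD.eqF n (fun t => j (i t))) T :=
    H776.KD.isSys_eqF hι hTex fun D hD => hne D ((hTΔ D).1 hD)
  have hjd : ∀ z, (dM (Cm n) (Cm n) j z).det ≠ 0 := fun z => det_ne_of_inj' (hj.2.2.1 z)
  obtain ⟨G, hG0, hG⟩ := H776.KD.adjF (n := n) (p := p) (d := d) hnpd hjh hjd (fun z => hf z) hi
  have himm : ∀ t, Function.Injective (mfderiv 𝓘(ℂ, Cm d) 𝓘(ℂ, Cm n) (fun t => j (i t)) t) := by
    intro t
    have h1 : mfderiv 𝓘(ℂ, Cm d) 𝓘(ℂ, Cm n) (fun t => j (i t)) t =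
        (mfderiv 𝓘(ℂ, Cm n) 𝓘(ℂ, Cm n) j (i t)).comp (mfderiv 𝓘(ℂ, Cm d) 𝓘(ℂ, Cm n) i t) :=
      mfderiv_comp t ((hjh (i t)).mdifferentiableAt (by simp))
        ((hih t).mdifferentiableAt (by simp))
    rw [h1]
    exact (hj.2.2.1 (i t)).comp (hi.immersive t)
  refine growth_kod (eqn := H776.KD.eqF n (fun t => j (i t)))
    (V := fun t => W (j (i t)) * ‖G t ^ m‖ ^ 2) (kahler_pull hι himm hχ) hsF hTΔ (fun x hx => ?_)
    hm hk (isSemiPos_pull hι hβ) (closed_pull hι hθ.1) (fun ε hε => nef_pull hι hθ hε) hd (fun t => ?_) ha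
  · refine (H776.KD.off_eqF hι hTex).2 fun D hD hmem => ?_
    obtain ⟨g, ⟨e', he', hev'⟩, hg⟩ := hx D hD
    rw [hev'.self_of_nhds] at hg
    exact hg ((mem_iffE he').1 hmem)
  · obtain ⟨r, g, a, h1, h2, h3⟩ := hV t
    have h4 := volLoc_fib hι hG h1 h2
    rw [pull_zero] at h4
    exact ⟨r, fun l t => g l (j (i t)), a, h4, h3⟩

end fib

/-- **Theorem NU, with `κ(F, K_F + Δ|_F)`** -/
def NumNefK : Prop := ∀ (n p d : ℕ) (_ : n = p + d) (X Z Y F : Type)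
  [TopologicalSpace X] [T2Space X] [CompactSpace X] [ConnectedSpace X]
  [ChartedSpace (Cm n) X] [IsManifold 𝓘(ℂ, Cm n) ω X]
  [TopologicalSpace Z] [ChartedSpace (Cm n) Z] [IsManifold 𝓘(ℂ, Cm n) ω Z]
  [TopologicalSpace Y] [T2Space Y] [ConnectedSpace Y]
  [ChartedSpace (Cm p) Y] [IsManifold 𝓘(ℂ, Cm p) ω Y]
  [TopologicalSpace F] [T2Space F] [CompactSpace F] [ConnectedSpace F]
  [ChartedSpace (Cm d) F] [IsManifold 𝓘(ℂ, Cm d) ω F]
  (χ : D.FormM n X) (_ : IsKahler χ) (Δ : Set X → ℝ) (_ : J.IsSNC (Cm n) Δ)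
  (m : ℕ) (_ : 0 < m) (k : Set X → ℕ) (_ : ∀ D, (k D : ℝ) = m * Δ D)
  (θ β : D.FormM n X) (_ : H342.NU.IsNef χ θ) (_ : IsSemiPos β) (W : X → ℝ)
  (_ : ∀ x, ∃ (r : ℕ) (g : Fin r → X → ℂ) (a : Fin r → ℕ),
    VolLoc n m (fun (D : Set X) z g => J.IsLocalEq (Cm n) D g z) k W (fun _ _ => 0) θ x g a ∧
    ∀ᶠ z in 𝓝 x, ∀ i, g i z = 0 → ConAt n (g i) β θ z)
  (j : Z → X) (_ : J.IsBigOpen (Cm n) j) (f : Z → Y) (_ : ContMDiff 𝓘(ℂ, Cm n) 𝓘(ℂ, Cm p) ω f)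
  (i : F → Z) (_ : IsSmoothFibre (Cm n) (Cm p) (Cm d) f i) (_ : Function.Injective i)
  (_ : ∀ D, Δ D ≠ 0 → ∃ t, j (i t) ∉ D)
  (_ : Dense {t | (pull (fun t => j (i t)) β (chartAt (Cm d) t) (chartAt (Cm d) t t)).PosDef})
  (_ : ∀ t : F, ∃ (r : ℕ) (g : Fin r → X → ℂ) (a : Fin r → ℕ),
    VolLoc n m (fun (D : Set X) z g => J.IsLocalEq (Cm n) D g z) k W (fun _ _ => 0) θ (j (i t)) g a ∧
    (∀ l, J.dif (Cm d) (fun t => g l (j (i t))) t ≠ 0) ∧
    ∀ᶠ s in 𝓝 t, ∀ l, g l (j (i s)) = 0 →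
      ConAt d (fun t => g l (j (i t))) (pull (fun t => j (i t)) β) (pull (fun t => j (i t)) θ) s)
  (ν : ℕ) (c C : ℝ) (_ : 0 < c)
  (_ : ∀ᶠ s : ℝ in atTop, c * s ^ ν ≤
    intX fun (e : Chart n X) z => (addF β s θ e z).det.re)
  (_ : ∀ᶠ s : ℝ in atTop,
    (intX fun (e : Chart n X) z => (addF (addF β s θ) 1 χ e z).det.re) ≤ C * s ^ ν),
  J.kod (Cm d) (fun (D : Set X) t g => ∃ e, J.IsLocalEq (Cm n) D e (j (i t)) ∧
      ∀ᶠ t' in 𝓝 t, g t' = e (j (i t'))) Δ + TL.kodF (n := n) (p := p) Δ j f ≤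
    ((ν : ℕ∞) : WithBot ℕ∞)

/-- **row N9** -/
theorem numNefK_of (hN : H342.NU.NumNef) : NumNefK := by
  intro n p d hn X Z Y F _ _ _ _ _ _ _ _ _ _ _ _ _ _ _ _ _ _ _ _ χ hχ Δ hΔ m hm k hk θ β hθ hβ W hW
    j hj f hf i hi hinj hne hd hV ν c C hc h1 h2
  have key : ∀ a : ℕ, ((a : ℕ∞) : WithBot ℕ∞) ≤ J.kod (Cm d) (fun (D : Set X) t g =>
      ∃ e, J.IsLocalEq (Cm n) D e (j (i t)) ∧ ∀ᶠ t' in 𝓝 t, g t' = e (j (i t'))) Δ →
      ((a : ℕ∞) : WithBot ℕ∞) + TL.kodF (n := n) (p := p) Δ j f ≤ ((ν : ℕ∞) : WithBot ℕ∞) := by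
    intro a ha
    obtain ⟨c', hc', h3⟩ := fib_growth hn hχ hΔ hm hk hθ hβ hj hf hi hne hd hV ha
    refine hN n p d hn X Z Y F χ hχ Δ hΔ m hm k hk θ β hθ hβ W hW j hj f hf i hi hinj ν a
      (min c c') C (lt_min hc hc') ?_ h2 ?_
    · filter_upwards [h1, eventually_gt_atTop 0] with s hs hs0
      exact (mul_le_mul_of_nonneg_right (min_le_left _ _) (by positivity)).trans hs
    · filter_upwards [eventually_gt_atTop 0] with s hs0
      exact (mul_le_mul_of_nonneg_right (min_le_right _ _) (by positivity)).trans (h3 s hs0)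
  set K := J.kod (Cm d) (fun (D : Set X) t g =>
      ∃ e, J.IsLocalEq (Cm n) D e (j (i t)) ∧ ∀ᶠ t' in 𝓝 t, g t' = e (j (i t'))) Δ with hK
  set K' := TL.kodF (n := n) (p := p) Δ j f with hK'
  by_cases hb' : K' = ⊥
  · rw [hb', WithBot.add_bot]
    exact bot_le
  by_cases hb : K = ⊥
  · rw [hb, WithBot.bot_add]
    exact bot_le
  obtain ⟨u, hu⟩ := WithBot.ne_bot_iff_exists.1 hb
  obtain ⟨v, hv⟩ := WithBot.ne_bot_iff_exists.1 hb'
  rw [← hu, ← hv] at key ⊢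
  have key2 : ∀ a : ℕ, (a : ℕ∞) ≤ u → (a : ℕ∞) + v ≤ ν := by
    intro a ha
    have := key a (by exact_mod_cast ha)
    exact_mod_cast this
  have h5 : u + v ≤ ν := by
    rcases eq_or_ne u ⊤ with hu | hu
    · exfalso
      have h6 := key2 (ν + 1) (by rw [hu]; exact le_top)
      have h7 : ((ν + 1 : ℕ) : ℕ∞) ≤ ν := le_self_add.trans h6
      have h8 : ν + 1 ≤ ν := by exact_mod_cast h7
      omega
    · obtain ⟨a, ha⟩ := ENat.ne_top_iff_exists.1 hu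
      rw [← ha]
      exact key2 a (by rw [ha])
  exact_mod_cast h5

end Vale.Agent.P281.H167.NU
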