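import Vale.Agent.P281.H342.NU.F
import Vale.Agent.P281.H167.NU.FibX

/-! P281, theorem NU, row N9, in the form of `H342.NU.NumNefF`. -/

namespace Vale.Agent.P281.H167.NU

/-- **Theorem NU**, second form -/
theorem numNefF_of (hN : H342.NU.NumNef) : H342.NU.NumNefF := by
  intro n p d hn X Z Y F _ _ _ _ _ _ _ _ _ _ _ _ _ _ _ _ _ _ _ _ χ hχ Δ hΔ m hm k hk θ β hθ hβ
    W hW j hj f hf i hi hinj ν c C hc h1 h2 hoff hβd hWF
  exact numNefK_of hN n p d hn X Z Y F χ hχ Δ hΔ m hm k hk θ β hθ hβ W hW j hj f hf i hi hinj hoff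
    hβd hWF ν c C hc h1 h2

end Vale.Agent.P281.H167.NU
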