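import Vale.Agent.P281.H167.NU.FinF
import Vale.Agent.P281.H342.NU.Fin

/-! P281, theorem NU, second form, closed. -/

namespace Vale.Agent.P281.H167.NU

/-- **Theorem NU**, second form: `κ(F, K_F + Δ|_F) + κ(f | Δ) ≤ ν`. -/
theorem numNefF : H342.NU.NumNefF := numNefF_of H342.NU.numNef

end Vale.Agent.P281.H167.NU
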