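import Vale.Agent.P281.H167.LC.Lap
import Vale.Agent.P281.H167.GM.Est

/-! P281, theorem NU (`K_X + Δ` nef, log canonical): the metrics and the mass inequality, as
propositions.  Curvature errors `ε₀ χ` are allowed in the rows of theorem LC. -/

open scoped Manifold ContDiff Topology ComplexOrder
open Set Filter Vale.Agent.P281.J Vale.Agent.P272.K Vale.Agent.P272.K.AMP Vale.Agent.P299
open Vale.Agent.P299.H882 (J xi qf)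
open Vale.Agent.P272.K.INT (IsClosedForm)

set_option linter.all false

noncomputable section

namespace Vale.Agent.P281.H167.NU

open Vale.Agent.P281.H713 Vale.Agent.P281.H713.SA Vale.Agent.P281.H713.KD Vale.Agent.P281.H716
open Vale.Agent.P281.H167.GM (mixX addF phiD)
open Vale.Agent.P281.H167.LC (vN)

section defs

variable {n M : ℕ} {X : Type} [TopologicalSpace X] [ChartedSpace (Cm n) X]

/-- the metrics `φ + (1/m) log (ρ + δ) - ∑ dl i log (r i)` of `K_X + ∑ dl i Dv i` have curvature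
`≥ - (C δ/(ρ + δ) + ε₀) χ` -/
def CurvN (φ : Chart n X → Cm n → ℝ) (m : ℕ) (ρ : X → ℝ) (dl : Fin M → ℝ)
    (R : Fin M → D.FormM n X) (C ε₀ : ℝ) (χ : D.FormM n X) : Prop :=
  ∀ δ : ℝ, 0 < δ → ∀ e x, At e x → (curvK φ m ρ δ dl R e (e x) +
    ((C * (δ / (ρ x + δ)) + ε₀ : ℝ) : ℂ) • χ e (e x)).PosSemidef

end defs

/-- **Row N1a** (Bochner): `BochPartE` with the error `ε₀ χ` in the curvature. -/
def BochPartN : Prop := ∀ (n M : ℕ) (X : Type) [TopologicalSpace X] [T2Space X] [CompactSpace X]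
  [ConnectedSpace X] [ChartedSpace (Cm n) X] [IsManifold 𝓘(ℂ, Cm n) ω X]
  (χ : D.FormM n X) (_ : IsKahler χ) (φ : Chart n X → Cm n → ℝ) (_ : IsCanonicalMetric φ)
  (m : ℕ) (_ : 0 < m) (ρ : X → ℝ) (_ : SmoothFn (n := n) ρ) (_ : ∀ x, 0 ≤ ρ x)
  (Dv : Fin M → Set X) (r : Fin M → X → ℝ) (R : Fin M → D.FormM n X)
  (_ : IsBd Dv r R) (dl : Fin M → ℝ) (_ : ∀ i, 0 ≤ dl i) (C ε₀ : ℝ) (_ : 0 ≤ C) (_ : 0 ≤ ε₀)
  (_ : CurvN φ m ρ dl R C ε₀ χ) (p μ : ℕ) (K : Fin M → ℕ) (_ : ∀ i, (K i : ℝ) ≤ μ * dl i)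
  (N₀ N₁ : D.FormM n X → X → ℝ) (_ : IsDecPair Dv r χ p μ K N₀ N₁),
  ∃ C₂ : ℝ, 0 ≤ C₂ ∧ ∀ a : ℝ, 0 < a →
  ∃ C' : ℝ, 0 ≤ C' ∧ ∀ (β : X → ℝ), Continuous β → (∀ x, 0 ≤ β x) →
    (∀ x, N₀ χ x + N₁ χ x < a → 1 ≤ β x) → ∀ δ ε η : ℝ, 0 < δ → 0 < ε → ε ≤ 1 → 0 ≤ η →
    ∀ (g : D.FormM n X) (c : ℝ), IsKahler g →
      (∀ e x, At e x → Real.log (g e (e x)).det.re =
        phiK φ m ρ δ (fun i => (1 - η) * dl i) r ε e (e x) + c) →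
      ∀ N : D.FormM n X → X → ℝ, N = N₀ ∨ N = N₁ →
      BochF g (fun x => μ * (trX g (curvK φ m ρ δ dl R) x +
          (C * (δ / (ρ x + δ)) + ε₀) * trX g χ x) +
        C' * ∑ i, ε / (r i x + ε) * trX g χ x +
        β x * (∑ i, if K i = 0 then 0 else K i * (trX g (dF (r i) (R i) ε) x + C₂ * trX g χ x)) +
        μ * ∑ i, η * dl i * (trX g (dF (r i) (R i) ε) x + C₂ * trX g χ x))
        (fun x => N g x * ∏ i, (r i x + ε)⁻¹ ^ K i)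

/-- **Row N1b** (metrics): `StepPartE` with the error `ε₀ χ` in the curvature. -/
def StepPartN : Prop := ∀ (n M : ℕ) (X : Type) [TopologicalSpace X] [T2Space X] [CompactSpace X]
  [ConnectedSpace X] [ChartedSpace (Cm n) X] [IsManifold 𝓘(ℂ, Cm n) ω X]
  (χ : D.FormM n X) (_ : IsKahler χ) (φ : Chart n X → Cm n → ℝ) (_ : IsCanonicalMetric φ)
  (m : ℕ) (_ : 0 < m) (ρ : X → ℝ) (_ : SmoothFn (n := n) ρ) (_ : ∀ x, 0 ≤ ρ x)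
  (Dv : Fin M → Set X) (r : Fin M → X → ℝ) (R : Fin M → D.FormM n X)
  (_ : IsBd Dv r R) (dl : Fin M → ℝ) (_ : ∀ i, 0 ≤ dl i ∧ dl i ≤ 1) (C ε₀ : ℝ) (_ : 0 ≤ C)
  (_ : 0 ≤ ε₀) (_ : CurvN φ m ρ dl R C ε₀ χ)
  (θ β : D.FormM n X) (_ : IsClosedForm θ) (_ : IsClosedForm β)
  (_ : ∀ e x, At e x → (θ e (e x)).PosSemidef) (_ : ∀ e x, At e x → (β e (e x)).PosSemidef)
  (p μ : ℕ) (K : Fin M → ℕ) (_ : ∀ i, (K i : ℝ) ≤ μ * dl i)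
  (N₀ N₁ : D.FormM n X → X → ℝ) (_ : IsDecPair Dv r χ p μ K N₀ N₁) (x₀ : X) (_ : 0 < ρ x₀)
  (_ : 0 < N₀ χ x₀) (s t : ℝ) (_ : 0 ≤ s) (_ : 0 < t) (κ : ℝ) (_ : 0 < κ),
  ∃ U τ w : X → ℝ, SmoothFn (n := n) U ∧ IsKahler (addH (addF (addF β s θ) t χ) U) ∧
    Continuous τ ∧ (∀ x, 0 ≤ τ x) ∧ SmoothFn (n := n) w ∧ (∀ x, 0 < w x) ∧
    (∀ N : D.FormM n X → X → ℝ, N = N₀ ∨ N = N₁ →
      BochF (addH (addF (addF β s θ) t χ) U) τ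
        (fun x => N (addH (addF (addF β s θ) t χ) U) x * w x)) ∧
    J (addH (addF (addF β s θ) t χ) U) τ ≤
      μ * (mixX (addF (addF β s θ) t χ) (clsK φ dl R) +
        ε₀ * mixX (addF (addF β s θ) t χ) χ) + κ

/-- **Row N2** (167): the mass of `i∂∂̄ log (1 + N₁/N₀)`, for every Kähler form `G`. -/
def MassPartN : Prop := ∀ (n M : ℕ) (X : Type) [TopologicalSpace X] [T2Space X] [CompactSpace X]
  [ConnectedSpace X] [ChartedSpace (Cm n) X] [IsManifold 𝓘(ℂ, Cm n) ω X]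
  (χ : D.FormM n X) (_ : IsKahler χ) (φ : Chart n X → Cm n → ℝ) (_ : IsCanonicalMetric φ)
  (Dv : Fin M → Set X) (r : Fin M → X → ℝ) (R : Fin M → D.FormM n X)
  (_ : IsBd Dv r R) (dl : Fin M → ℝ) (_ : ∀ i, 0 ≤ dl i ∧ dl i ≤ 1)
  (p μ : ℕ) (K : Fin M → ℕ) (_ : ∀ i, (K i : ℝ) ≤ μ * dl i)
  (N₀ N₁ : D.FormM n X → X → ℝ) (_ : IsDecPair Dv r χ p μ K N₀ N₁)
  (_ : IsHolNorm (n := n) fun x => N₀ χ x + N₀ χ x)
  (u : X → ℝ) (_ : ∀ g x, IsKahler g → 0 < N₀ g x → 0 < N₁ g x →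
    u x = Real.log (N₁ g x) - Real.log (N₀ g x))
  (_ : ∀ ε₀ : ℝ, 0 < ε₀ → ∃ (m : ℕ) (ρ : X → ℝ) (C : ℝ) (x₀ : X), 0 < m ∧
    SmoothFn (n := n) ρ ∧ (∀ x, 0 ≤ ρ x) ∧ 0 < ρ x₀ ∧ 0 < N₀ χ x₀ ∧ CurvN φ m ρ dl R C ε₀ χ)
  (G : D.FormM n X) (_ : IsKahler G) (η : X → ℝ) (_ : Continuous η)
  (_ : ∀ x, η x ∈ Icc (0 : ℝ) 1) (_ : ∀ x ∈ tsupport η, 0 < N₀ χ x),
  J G (fun x => η x * lapX G (vN χ N₀ N₁) x) ≤ μ * mixX G (clsK φ dl R)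

end Vale.Agent.P281.H167.NU
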