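import Vale.Agent.P281.H342.NU.Iface
import Vale.Agent.P281.H167.NU.Iface
import Vale.Agent.P281.H156.KD.Core
import Vale.Agent.P299.H738.Prod

/-! P281, theorem NU: row N2 (the mass inequality for every Kähler form). -/

open scoped Manifold ContDiff ComplexOrder Topology
open Complex Set Filter MeasureTheory

set_option linter.all false

noncomputable section

namespace Vale.Agent.P281.H167.NU

open Vale.Agent.P272.K Vale.Agent.P272.K.AMP Vale.Agent.P299.D Vale.Agent.P299 Vale.Agent.P299.H882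
open Vale.Agent.P281.H167.SA Vale.Agent.P281.H167.GM Vale.Agent.P281.H713.KD
open Vale.Agent.P281.H413.MFS Vale.Agent.P281.H156.KD Vale.Agent.P281.H167.LC
open INT (IsDensity intX IsClosedForm)

/-- an arbitrary Kähler form is of the form `β + t χ`, `β ≥ 0` -/
theorem stepG (h : StepPartN) : H342.NU.StepPartN := by
  intro n M X _ _ _ _ _ _ χ hχ φ hφ m hm ρ hρ h0 Dv r R hbd dl hdl C ε₀ hC hε₀ hcurv G hG p μ K hK
    N₀ N₁ hN x₀ hρ₀ hx₀ κ hκ
  have hχc := INT.IsKahler.isClosedForm hχ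
  have hGc := INT.IsKahler.isClosedForm hG
  obtain ⟨A, hA0, hA, -⟩ := H738.exists_two_sided hG.toIsHermitian hχc.smooth
    (fun e x hx => (hχ.posDef e x hx).isHermitian) hχc.form
  set t : ℝ := (A + 1)⁻¹ with ht
  have hA1 : 0 < A + 1 := by linarith
  have htp : 0 < t := inv_pos.2 hA1
  have htA : 0 ≤ 1 - t * A := by
    have : t * A ≤ t * (A + 1) := mul_le_mul_of_nonneg_left (by linarith) htp.le
    rw [ht, inv_mul_cancel₀ hA1.ne'] at this
    rw [ht]
    linarith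
  have hβ0 : ∀ e x, At e x → (addF G (-t) χ e (e x)).PosSemidef := by
    intro e x hx
    have h1 := (psd_real_smul (hA e x hx) htp.le).add
      (psd_real_smul (hG.posDef e x hx).posSemidef htA)
    have e1 : ((t : ℝ) : ℂ) • ((A : ℂ) • G e (e x) - χ e (e x)) +
        ((1 - t * A : ℝ) : ℂ) • G e (e x) = addF G (-t) χ e (e x) := by
      show _ = G e (e x) + ((-t : ℝ) : ℂ) • χ e (e x)
      push_cast
      module
    rw [← e1]
    exact h1
  have hβ : IsClosedForm (addF G (-t) χ) := isClosed_addF hGc hχc (-t)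
  have hGeq : addF (addF (addF G (-t) χ) 0 χ) t χ = G := by
    funext e z
    show G e z + ((-t : ℝ) : ℂ) • χ e z + ((0 : ℝ) : ℂ) • χ e z + (t : ℂ) • χ e z = G e z
    push_cast
    module
  have h1 := h n M X χ hχ φ hφ m hm ρ hρ h0 Dv r R hbd dl hdl C ε₀ hC hε₀ hcurv χ (addF G (-t) χ)
    hχc hβ (fun e x hx => (hχ.posDef e x hx).posSemidef) hβ0 p μ K hK N₀ N₁ hN x₀ hρ₀ hx₀ 0 t
    le_rfl htp κ hκ
  rw [hGeq] at h1
  exact h1

/-- **Row N2** -/
theorem massPartN (bd : BdPart) (step : H342.NU.StepPartN) (cons : ConsPart) (mass : MassLe) :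
    H342.NU.MassPartN := by
  intro n M X _ _ _ _ _ _ χ hχ φ hφ m hm Dv r R hbd dl hdl hps p μ K hK N₀ N₁ hN hN0 u hu hne η hηc
    hη01 hηs G hG
  obtain ⟨x₁, hx₁⟩ := hne
  haveI : Nonempty X := ⟨x₁⟩
  have hχH := hχ.toIsHermitian
  have hGH := hG.toIsHermitian
  have c0' := sm_continuous (hN.smooth χ hχ).1
  set V₀ : Set X := {x | 0 < N₀ χ x} with hV₀def
  have hV₀ : IsOpen V₀ := isOpen_lt continuous_const c0'
  have hvs : ∀ (e : Chart n X) y, At e y → y ∈ V₀ →
      ContDiffAt ℝ ∞ (fun z => vN χ N₀ N₁ (e.symm z)) (e y) := fun e y hy hyV =>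
    smooth_vN hχ hN e y hy hyV
  have hpos : ∀ y, 0 < N₀ χ y + N₀ χ y ↔ y ∈ V₀ := fun y =>
    ⟨fun h => by show 0 < N₀ χ y; linarith, fun h => by
      have : 0 < N₀ χ y := h
      linarith⟩
  obtain ⟨-, -, hq⟩ := bd n M X G hG Dv r R hbd
  obtain ⟨hhs, Ch, hCh, hqh⟩ := hq _ hN0
  -- the estimate, with errors
  have key : ∀ ε₀ κ ε : ℝ, 0 < ε₀ → 0 < κ → 0 < ε → ε < 1 →
      (1 - ε) ^ n * H882.J G (fun x => η x * lapX G (vN χ N₀ N₁) x) ≤
        μ * (mixX G (clsK φ dl R) + ε₀ * mixX G χ) + κ := by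
    intro ε₀ κ ε hε₀ hκ hε hε1
    obtain ⟨ρ, C, hρ, h0, hρd, hC, hcurv⟩ := hps ε₀ hε₀
    obtain ⟨x₀, hx₀, hρ₀⟩ := hρd.exists_mem_open hV₀ ⟨x₁, hx₁⟩
    have hx₀' : 0 < ρ x₀ := hx₀
    obtain ⟨U, τ, w, hU, hg, cτ, hτ0, hw, hw0, hB, hJ⟩ := step n M X χ hχ φ hφ m hm ρ hρ h0 Dv r R
      hbd dl hdl C ε₀ hC hε₀.le hcurv G hG p μ K hK N₀ N₁ hN x₀ hx₀' hρ₀ κ hκ
    set g : D.FormM n X := addH G U with hgdef
    have hgH := hg.toIsHermitian
    obtain ⟨ψ, hψ, hψ01, hψs, hcons⟩ := cons n X G hG U hU hg (fun y => N₀ χ y + N₀ χ y) hhs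
      (fun y => by have := (hN.nonneg χ y hχ).1; linarith) Ch hqh (vN χ N₀ N₁)
      (fun e y hy hyp => ⟨hvs e y hy ((hpos y).1 hyp), psd_vN hχ hN hy ((hpos y).1 hyp)⟩)
      η hηc hη01 (fun y hy => (hpos y).2 (hηs y hy)) ε hε hε1
    have hup : H882.J g (fun x => ψ x * lapX g (vN χ N₀ N₁) x) ≤ H882.J g τ := by
      have hS0 : ∀ y, 0 < N₀ g y * w y ↔ 0 < N₀ χ y := by
        intro y
        rw [← (hN.pos g y hg).1]
        exact ⟨fun h => pos_of_mul_pos_left h (hw0 y).le, fun h => mul_pos h (hw0 y)⟩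
      refine mass n X g hg (fun y => N₀ g y * w y) (fun y => N₁ g y * w y) τ (vN χ N₀ N₁)
        (fun e y hy => ((hN.smooth g hg).1 e y hy).mul (hw e y hy))
        (fun e y hy => ((hN.smooth g hg).2 e y hy).mul (hw e y hy))
        (fun y => mul_nonneg (hN.nonneg g y hg).1 (hw0 y).le)
        (fun y => mul_nonneg (hN.nonneg g y hg).2 (hw0 y).le) cτ hτ0 (hB N₀ (Or.inl rfl))
        (hB N₁ (Or.inr rfl)) ?_ ?_ ψ hψ hψ01 ?_
      · intro y hy
        have hy0 : 0 < N₀ χ y := (hS0 y).1 hy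
        have hg0 : 0 < N₀ g y := (hN.pos g y hg).1.2 hy0
        unfold vN
        congr 2
        have hwy := (hw0 y).ne'
        rw [mul_div_mul_right _ _ hwy]
        by_cases h1 : 0 < N₁ χ y
        · have hg1 : 0 < N₁ g y := (hN.pos g y hg).2.2 h1
          have e1 := hu χ y hχ hy0 h1
          have e2 := hu g y hg hg0 hg1
          have e3 : Real.exp (Real.log (N₁ χ y) - Real.log (N₀ χ y)) =
              Real.exp (Real.log (N₁ g y) - Real.log (N₀ g y)) := by rw [← e1, ← e2]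
          rw [Real.exp_sub, Real.exp_sub, Real.exp_log h1, Real.exp_log hy0, Real.exp_log hg1,
            Real.exp_log hg0] at e3
          exact e3
        · have z1 : N₁ χ y = 0 := le_antisymm (not_lt.1 h1) (hN.nonneg χ y hχ).2
          have z2 : N₁ g y = 0 := by
            refine le_antisymm (not_lt.1 fun h => h1 ?_) (hN.nonneg g y hg).2
            exact (hN.pos g y hg).2.1 h
          rw [z1, z2, zero_div, zero_div]
      · intro e y hy hy'
        exact psd_vN hχ hN hy ((hS0 y).1 hy')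
      · intro y hy
        exact (hS0 y).2 ((hpos y).1 (hψs y hy))
    exact (hcons.trans hup).trans hJ
  -- `ε → 0`
  have key2 : ∀ t : ℝ, 0 < t → H882.J G (fun x => η x * lapX G (vN χ N₀ N₁) x) ≤
      μ * (mixX G (clsK φ dl R) + t * mixX G χ) + t := by
    intro t ht
    have hc : Tendsto (fun ε : ℝ => (1 - ε) ^ n *
        H882.J G (fun x => η x * lapX G (vN χ N₀ N₁) x)) (𝓝[>] 0)
        (𝓝 ((1 - 0) ^ n * H882.J G (fun x => η x * lapX G (vN χ N₀ N₁) x))) := by
      have h1 : Continuous fun ε : ℝ => (1 - ε) ^ n *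
        H882.J G (fun x => η x * lapX G (vN χ N₀ N₁) x) := by fun_prop
      exact (h1.tendsto 0).mono_left nhdsWithin_le_nhds
    rw [sub_zero, one_pow, one_mul] at hc
    refine le_of_tendsto hc ?_
    have h2 : Ioo (0 : ℝ) 1 ∈ 𝓝[>] (0 : ℝ) := Ioo_mem_nhdsGT one_pos
    filter_upwards [h2] with ε hε using key t t ε ht ht hε.1 hε.2
  -- the other errors
  have hc : Tendsto (fun t : ℝ => μ * (mixX G (clsK φ dl R) + t * mixX G χ) + t) (𝓝[>] 0)
      (𝓝 (μ * (mixX G (clsK φ dl R) + 0 * mixX G χ) + 0)) := by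
    have h1 : Continuous fun t : ℝ => μ * (mixX G (clsK φ dl R) + t * mixX G χ) + t := by fun_prop
    exact (h1.tendsto 0).mono_left nhdsWithin_le_nhds
  rw [zero_mul, add_zero, add_zero] at hc
  refine ge_of_tendsto hc ?_
  filter_upwards [self_mem_nhdsWithin] with t ht using key2 t ht

end Vale.Agent.P281.H167.NU
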